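import Crest.Agent.R11.Siegel

namespace Crest.Agent.R11

open MvPolynomial

/-- the integral curve of `Dv m 0` through the `s`-th point -/
noncomputable def analCurve {m : ℕ} (a : Fin m → ℂ) (s : ℕ) (τ : ℂ) : Fin (m + 1) → ℂ :=
  Fin.cons (Complex.exp τ) (fun j => (s : ℂ) * a j + τ)

theorem anal_hasDerivAt {m : ℕ} (a : Fin m → ℂ) (s : ℕ) (f : Rm m) (τ : ℂ) :
    HasDerivAt (fun τ => eval (analCurve a s τ) f) (eval (analCurve a s τ) (Dv m 0 f)) τ := by
  induction f using MvPolynomial.induction_on with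
  | C c => simpa using hasDerivAt_const τ c
  | add f g hf hg =>
    simp only [map_add]
    exact hf.add hg
  | mul_X f i hf =>
    have hX : HasDerivAt (fun τ => analCurve a s τ i) (eval (analCurve a s τ) (Dv m 0 (X i))) τ := by
      refine Fin.cases ?_ (fun j => ?_) i
      · simpa [analCurve] using Complex.hasDerivAt_exp τ
      · rw [Dv_zero_X_of_ne (Fin.succ_ne_zero j)]
        simpa [analCurve] using (hasDerivAt_id τ).const_add ((s : ℂ) * a j)
    have := hf.fun_mul hX
    simp only [map_mul, eval_X, Derivation.leibniz, smul_eq_mul, map_add]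
    refine this.congr_deriv ?_
    ring

theorem anal_iter {m : ℕ} (a : Fin m → ℂ) (s : ℕ) (n : ℕ) (f : Rm m) :
    iteratedDeriv n (fun τ => eval (analCurve a s τ) f) =
      fun τ => eval (analCurve a s τ) (dw (Dv m) (List.replicate n 0) f) := by
  induction n generalizing f with
  | zero => simp
  | succ n ih =>
    rw [iteratedDeriv_succ', List.replicate_succ, dw_cons, ← ih]
    congr 1
    funext τ
    exact (anal_hasDerivAt a s f τ).deriv

theorem anal_mono {m : ℕ} (y : Fin (m + 1) → ℂ) (v : List (Fin m)) (μ : Fin (m + 1) →₀ ℕ) (c : ℂ) :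
    eval y (dw (Dv m) (v.map Fin.succ) (monomial μ c)) = c * y 0 ^ μ 0 *
      ∏ j : Fin m, (((μ j.succ).descFactorial (v.count j) : ℂ) * y j.succ ^ (μ j.succ - v.count j)) := by
  induction v generalizing μ c with
  | nil =>
    simp only [List.map_nil, dw_nil, List.count_nil, Nat.descFactorial_zero, Nat.cast_one, one_mul, Nat.sub_zero]
    rw [eval_monomial, Finsupp.prod_fintype _ _ (fun _ => pow_zero _), Fin.prod_univ_succ, mul_assoc]
  | cons i v ih =>
    rw [List.map_cons, dw_cons, Dv_succ, pderiv_monomial, ih]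
    have h0 : (μ - Finsupp.single i.succ 1 : Fin (m + 1) →₀ ℕ) 0 = μ 0 := by
      simp [Finsupp.single_apply, Fin.succ_ne_zero]
    have h1 : ((μ i.succ : ℕ) : ℂ) = ∏ j : Fin m, (if j = i then ((μ j.succ : ℕ) : ℂ) else 1) := by simp
    rw [h0, h1, mul_assoc, mul_assoc, mul_assoc, mul_left_comm (∏ j : Fin m, _), ← Finset.prod_mul_distrib]
    congr 2
    refine Finset.prod_congr rfl fun j _ => ?_
    by_cases hj : j = i
    · subst hj
      simp only [if_true, Finsupp.coe_tsub, Pi.sub_apply, Finsupp.single_eq_same, List.count_cons_self]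
      rw [← mul_assoc, Nat.sub_sub, add_comm 1]
      congr 1
      cases μ j.succ with
      | zero => simp
      | succ k =>
        rw [Nat.succ_descFactorial_succ, Nat.add_sub_cancel]
        push_cast
        ring
    · have h2 : (i.succ : Fin (m + 1)) ≠ j.succ := fun h => hj (Fin.succ_injective _ h).symm
      simp [hj, Finsupp.single_apply, h2, List.count_cons, Ne.symm hj]

theorem anal_binom (l g L : ℕ) (hl : l ≤ L) (y ζ : ℂ) :
    (l.descFactorial g : ℂ) * (y + ζ) ^ (l - g) = ∑ b ∈ Finset.range (L + 1),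
      ((g.factorial : ℂ) * ((b.choose g : ℂ) * y ^ (b - g))) * ((l.choose b : ℂ) * ζ ^ (l - b)) := by
  rw [Nat.descFactorial_eq_factorial_mul_choose]
  rcases lt_or_ge l g with h | h
  · rw [Nat.choose_eq_zero_of_lt h, Finset.sum_eq_zero]
    · simp
    · intro b _
      rcases lt_or_ge b g with h1 | h1
      · simp [Nat.choose_eq_zero_of_lt h1]
      · simp [Nat.choose_eq_zero_of_lt (h.trans_le h1)]
  · rw [add_pow, Finset.mul_sum]
    symm
    rw [← Finset.sum_subset (s₁ := (Finset.range (l - g + 1)).image (g + ·))]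
    · rw [Finset.sum_image (fun i _ j _ h => Nat.add_left_cancel h)]
      refine Finset.sum_congr rfl fun i hi => ?_
      have h1 : ((l.choose (g + i) : ℕ) : ℂ) * ((g + i).choose g : ℕ) = (l.choose g : ℕ) * ((l - g).choose i : ℕ) := by
        have := Nat.choose_mul (n := l) (k := g + i) (s := g) (Nat.le_add_right _ _)
        rw [Nat.add_sub_cancel_left] at this
        exact_mod_cast this
      rw [Nat.add_sub_cancel_left, ← Nat.sub_sub]
      push_cast
      linear_combination (g.factorial : ℂ) * y ^ i * ζ ^ (l - g - i) * h1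
    · intro n hn
      obtain ⟨i, hi, rfl⟩ := Finset.mem_image.1 hn
      rw [Finset.mem_range] at hi ⊢
      omega
    · intro b _ hb
      rcases lt_or_ge b g with h1 | h1
      · simp [Nat.choose_eq_zero_of_lt h1]
      · rcases lt_or_ge l b with h2 | h2
        · simp [Nat.choose_eq_zero_of_lt h2]
        · exact absurd (Finset.mem_image.2 ⟨b - g, Finset.mem_range.2 (by omega), by omega⟩) hb

/-- Cauchy estimate for the derivatives of the auxiliary polynomial at a point. -/
theorem anal {m : ℕ} (a : Fin m → ℂ) (q : Fin m → ℕ) (T : Finset ((Fin m → ℕ) × ℕ)) (L : ℕ)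
    (hT : ∀ x ∈ T, ∀ j, x.1 j ≤ L) (c : (Fin m → ℕ) × ℕ → ℤ) (s : ℕ) (R₀ : ℝ)
    (hR : 2 * Real.pi * s + 1 ≤ R₀) (M : (Fin m → ℕ) → ℝ)
    (hM : ∀ b, ∀ ζ : ℂ, ‖ζ‖ ≤ R₀ → ‖Gf q T c b ζ‖ ≤ M b) (v : List (Fin m)) (n : ℕ) :
    ‖eval (pt a s) (dw (Dv m) (v.map Fin.succ ++ List.replicate n 0) (auxP q T c))‖ ≤
      (n.factorial : ℝ) * (∏ j, ((v.count j).factorial : ℝ)) *
        ∑ b ∈ Fintype.piFinset (fun _ : Fin m => Finset.range (L + 1)),
          (∏ j, (((b j).choose (v.count j) : ℝ) *
            ‖(s : ℂ) * (2 * Real.pi * Complex.I - a j)‖ ^ (b j - v.count j))) * M b := by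
  rw [dw_append]
  have h0 : pt a s = analCurve a s 0 := by
    funext i
    refine Fin.cases ?_ (fun j => ?_) i <;> simp [analCurve]
  set f := dw (Dv m) (v.map Fin.succ) (auxP q T c) with hf
  have h1 := congrFun (anal_iter a s n f) 0
  rw [h0, ← h1]
  have hd : Differentiable ℂ fun τ => eval (analCurve a s τ) f := fun τ => (anal_hasDerivAt a s f τ).differentiableAt
  have := Complex.norm_iteratedDeriv_le_of_forall_mem_sphere_norm_le (c := 0) (R := 1)
    (C := (∏ j, ((v.count j).factorial : ℝ)) *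
        ∑ b ∈ Fintype.piFinset (fun _ : Fin m => Finset.range (L + 1)),
          (∏ j, (((b j).choose (v.count j) : ℝ) *
            ‖(s : ℂ) * (2 * Real.pi * Complex.I - a j)‖ ^ (b j - v.count j))) * M b) n one_pos
    hd.diffContOnCl ?_
  · simpa [mul_assoc] using this
  intro τ hτ
  rw [mem_sphere_zero_iff_norm] at hτ
  set ζ : ℂ := 2 * Real.pi * Complex.I * s + τ with hζ
  set y : Fin m → ℂ := fun j => -((s : ℂ) * (2 * Real.pi * Complex.I - a j)) with hy
  have hζR : ‖ζ‖ ≤ R₀ := by
    refine (norm_add_le _ _).trans (le_trans (le_of_eq ?_) hR)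
    simp [hτ, abs_of_pos Real.pi_pos]
  have hexp : ∀ k : ℕ, Complex.exp τ ^ k = Complex.exp (k * ζ) := by
    intro k
    rw [Complex.exp_nat_mul, hζ, Complex.exp_add, mul_comm _ (s : ℂ), Complex.exp_nat_mul_two_pi_mul_I, one_mul]
  have key : eval (analCurve a s τ) f = ∑ b ∈ Fintype.piFinset (fun _ : Fin m => Finset.range (L + 1)),
      (∏ j, (((v.count j).factorial : ℂ) * (((b j).choose (v.count j) : ℂ) * y j ^ (b j - v.count j)))) *
        Gf q T c b ζ := by
    rw [hf, auxP_eq_sum, dw_sum, map_sum]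
    simp only [Gf, Finset.mul_sum]
    rw [Finset.sum_comm]
    refine Finset.sum_congr rfl fun x hx => ?_
    rw [anal_mono]
    have e : ∀ j : Fin m, analCurve a s τ j.succ = y j + ζ := by
      intro j
      simp only [analCurve, Fin.cons_succ, hy, hζ]
      ring
    simp only [e, siegelExp_zero, siegelExp_succ]
    rw [Finset.prod_congr rfl fun j _ => anal_binom (x.1 j) (v.count j) L (hT x hx j) (y j) ζ,
      Finset.prod_univ_sum, Finset.mul_sum]
    refine Finset.sum_congr rfl fun b _ => ?_
    have e0 : analCurve a s τ 0 = Complex.exp τ := rfl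
    rw [e0, hexp]
    simp only [Finset.prod_mul_distrib]
    ring
  rw [key, Finset.mul_sum]
  refine (norm_sum_le _ _).trans (Finset.sum_le_sum fun b _ => ?_)
  rw [norm_mul, norm_prod, ← mul_assoc, ← Finset.prod_mul_distrib]
  refine mul_le_mul (le_of_eq (Finset.prod_congr rfl fun j _ => ?_)) (hM b ζ hζR) (norm_nonneg _)
    (Finset.prod_nonneg fun j _ => by positivity)
  rw [norm_mul, norm_mul, norm_pow, Complex.norm_natCast, Complex.norm_natCast, hy, norm_neg]

end Crest.Agent.R11
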