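import Crest.Agent.R11.Defs

namespace Crest.Agent.R11

open MvPolynomial

variable {m : ℕ}

/-! Degree filtration. -/

theorem Vs_mono (w : Fin (m + 1) → ℕ) (K D : ℕ) : Monotone (Vs w K D) := by
  sorry

theorem Vs_mul {w : Fin (m + 1) → ℕ} {K D k k' : ℕ} {f g : Rm m} (hf : f ∈ Vs w K D k)
    (hg : g ∈ Vs w K D k') : f * g ∈ Vs w K D (k + k') := by
  sorry

theorem one_mem_Vs (w : Fin (m + 1) → ℕ) (K D k : ℕ) : (1 : Rm m) ∈ Vs w K D k := by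
  sorry

theorem Vs_pow {w : Fin (m + 1) → ℕ} {K D k : ℕ} {f : Rm m} (hf : f ∈ Vs w K D k) (n : ℕ) :
    f ^ n ∈ Vs w K D (n * k) := by
  sorry

theorem Vs_prod {κ : Type*} {w : Fin (m + 1) → ℕ} {K D : ℕ} (T : Finset κ) (f : κ → Rm m)
    (k : κ → ℕ) (hf : ∀ i ∈ T, f i ∈ Vs w K D (k i)) :
    ∏ i ∈ T, f i ∈ Vs w K D (∑ i ∈ T, k i) := by
  sorry

theorem Dv_mem_Vs {w : Fin (m + 1) → ℕ} {K D k : ℕ} {f : Rm m} (hf : f ∈ Vs w K D k)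
    (i : Fin (m + 1)) : Dv m i f ∈ Vs w K D k := by
  sorry

theorem dw_mem_Vs {w : Fin (m + 1) → ℕ} {K D k : ℕ} {f : Rm m} (hf : f ∈ Vs w K D k)
    (u : List (Fin (m + 1))) : dw (Dv m) u f ∈ Vs w K D k := by
  sorry

theorem exists_mem_Vs (w : Fin (m + 1) → ℕ) {K D : ℕ} (hK : 1 ≤ K) (hD : 1 ≤ D) (f : Rm m) :
    ∃ k, f ∈ Vs w K D k := by
  sorry

theorem xi_pow_mem_Vs (w : Fin (m + 1) → ℕ) (K D k : ℕ) (j : Fin m) (c : ℂ) (n : ℕ)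
    (h : n * w j.succ ≤ k * D) : (X j.succ - C c : Rm m) ^ n ∈ Vs w K D k := by
  sorry

/-- `Vs` is spanned by an explicit finite family of monomials. -/
theorem Vs_le_span (w : Fin (m + 1) → ℕ) (hw : ∀ i, 1 ≤ w i) (K D k : ℕ) :
    ∃ T : Finset (Rm m), T.card ≤ (k * K + 1) * (simplex (fun j : Fin m => w j.succ) (k * D)).card ∧
      Vs w K D k ≤ Submodule.span ℂ (T : Set (Rm m)) := by
  sorry

end Crest.Agent.R11
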