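import Crest.Agent.R11.Core
import Crest.Agent.R11.Local

namespace Crest.Agent.R11

open MvPolynomial

namespace BootA

variable {m : ℕ}

/-- reduction of elements of `(span G)^j` to bounded degree -/
theorem reduce (w : Fin (m + 1) → ℕ) (a : Fin m → ℂ) (S K D : ℕ) (θp θ : ℝ) (G : Set (Rm m))
    (hG : ∀ g ∈ G, g ∈ Vs w K D 1 ∧ g ∈ aI w a S θp) (c₀ k : ℕ)
    (hS : ∀ f : Rm m, ∃ v ∈ Vs w K D (k + c₀), f - v ∈ aI w a S (k * θ)) (j : ℕ) :
    ∀ y ∈ Ideal.span G ^ j, ∃ v ∈ Vs w K D (k + c₀ + j), v ∈ Ideal.span G ^ j ∧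
      y - v ∈ aI w a S (k * θ + j * θp) := by
  induction j with
  | zero =>
    intro y _
    obtain ⟨v, h1, h2⟩ := hS y
    exact ⟨v, h1, by simp, by simpa using h2⟩
  | succ j ih =>
    have key : ∀ z ∈ Ideal.span G, ∀ y ∈ Ideal.span G ^ j, ∃ v ∈ Vs w K D (k + c₀ + (j + 1)),
        v ∈ Ideal.span G ^ (j + 1) ∧ y * z - v ∈ aI w a S (k * θ + (j + 1 : ℕ) * θp) := by
      intro z hz
      induction hz using Submodule.span_induction with
      | mem g hg =>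
        intro y hy
        obtain ⟨v, h1, h2, h3⟩ := ih y hy
        refine ⟨v * g, (Vs_mul h1 (hG g hg).1 :), ?_, ?_⟩
        · rw [pow_succ]
          exact Ideal.mul_mem_mul h2 (Ideal.subset_span hg)
        · rw [← sub_mul]
          convert aI_mul h3 (hG g hg).2 using 2
          push_cast
          ring
      | zero => exact fun y _ => ⟨0, zero_mem _, zero_mem _, by simp⟩
      | add z z' _ _ h1 h2 =>
        intro y hy
        obtain ⟨v, a1, a2, a3⟩ := h1 y hy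
        obtain ⟨v', b1, b2, b3⟩ := h2 y hy
        refine ⟨v + v', add_mem a1 b1, add_mem a2 b2, ?_⟩
        convert add_mem a3 b3 using 1
        ring
      | smul r z _ h1 =>
        intro y hy
        obtain ⟨v, a1, a2, a3⟩ := h1 (y * r) (Ideal.mul_mem_right _ _ hy)
        refine ⟨v, a1, a2, ?_⟩
        rwa [smul_eq_mul, ← mul_assoc]
    intro y hy
    rw [pow_succ] at hy
    induction hy using Submodule.mul_induction_on' with
    | mem_mul_mem y hy z hz => exact key z hz y hy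
    | add y _ y' _ h1 h2 =>
      obtain ⟨v, a1, a2, a3⟩ := h1
      obtain ⟨v', b1, b2, b3⟩ := h2
      refine ⟨v + v', add_mem a1 b1, add_mem a2 b2, ?_⟩
      convert add_mem a3 b3 using 1
      ring

/-- the local data at the points -/
theorem data (w : Fin (m + 1) → ℕ) (a : Fin m → ℂ) (S K D : ℕ) (hK : 1 ≤ K) (hD : 1 ≤ D)
    (I : Ideal (Rm m))
    (hPT : ∀ p : Ideal (Rm m), p.IsPrime → I ≤ p → ∀ s, p ≤ mx a s →
      (X 0 - 1 : Rm m) ∈ p ∧ ∀ s', s' ≠ s → ¬ p ≤ mx a s') :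
    ∃ (h u : ℕ → Rm m) (c d : ℕ), ∀ s < S, h s ∈ Vs w K D d ∧ u s ∉ mx a s ∧
      (∀ s' < S, s' ≠ s → h s ∉ mx a s') ∧ u s * h s ^ c ∈ I ∧ u s * (X 0 - 1) ^ c ∈ I := by
  have H : ∀ s : ℕ, ∃ (h u : Rm m) (c d : ℕ), h ∈ Vs w K D d ∧ u ∉ mx a s ∧
      (∀ s' < S, s' ≠ s → h ∉ mx a s') ∧ u * h ^ c ∈ I ∧ u * (X 0 - 1) ^ c ∈ I := by
    intro s
    obtain ⟨y, hy1, hy2⟩ := exists_sep I (mx a s) ((Finset.range S).erase s) (fun k => mx a k)
      (fun k _ => inferInstance) fun p hp hps k hk =>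
        (hPT p hp.1.1 hp.1.2 s hps).2 k (Finset.ne_of_mem_erase hk)
    obtain ⟨N, u, hu1, hu2⟩ := loc_nil I (Ideal.span {y, X 0 - 1}) (mx a s) inferInstance
      fun p hp hps => by
        rw [Ideal.span_le]
        rintro z (rfl | rfl)
        exacts [hy1 p hp hps, (hPT p hp.1.1 hp.1.2 s hps).1]
    obtain ⟨d, hd⟩ := exists_mem_Vs w hK hD y
    exact ⟨y, u, N, d, hd, hu1, fun s' h1 h2 => hy2 s' (Finset.mem_erase.2 ⟨h2, Finset.mem_range.2 h1⟩),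
      hu2 _ (Ideal.pow_mem_pow (Ideal.subset_span (by simp)) N),
      hu2 _ (Ideal.pow_mem_pow (Ideal.subset_span (by simp)) N)⟩
  choose h u c d H using H
  refine ⟨h, u, (Finset.range S).sup c, (Finset.range S).sup d, fun s hs => ?_⟩
  have hc : c s ≤ (Finset.range S).sup c := Finset.le_sup (Finset.mem_range.2 hs)
  have hd : d s ≤ (Finset.range S).sup d := Finset.le_sup (Finset.mem_range.2 hs)
  obtain ⟨e, he⟩ := Nat.exists_eq_add_of_le hc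
  obtain ⟨h1, h2, h3, h4, h5⟩ := H s
  refine ⟨Vs_mono w K D hd h1, h2, h3, ?_, ?_⟩
  · rw [he, pow_add, ← mul_assoc]
    exact I.mul_mem_right _ h4
  · rw [he, pow_add, ← mul_assoc]
    exact I.mul_mem_right _ h5

theorem gamma_mem (hm : 1 ≤ m) (w : Fin (m + 1) → ℕ) (hw : ∀ i, 1 ≤ w i) {a : Fin m → ℂ}
    (ha : ∀ j, a j ≠ 0) (S : ℕ) (I : Ideal (Rm m)) (h u : ℕ → Rm m) (c : ℕ)
    (H : ∀ s < S, u s ∉ mx a s ∧ u s * h s ^ c ∈ I ∧ u s * (X 0 - 1) ^ c ∈ I) (j n : ℕ) (t : ℝ)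
    (s₀ : ℕ) (i : Fin m) (hn : t + (c * j : ℕ) * w i.succ ≤ n * w i.succ) :
    (X i.succ - C ((s₀ : ℂ) * a i) : Rm m) ^ n * ∏ s ∈ (Finset.range S).erase s₀, h s ^ (c * j) ∈
      I ^ j ⊔ aI w a S t := by
  refine mem_sup_aI hm w hw ha S t _ fun s hs => ?_
  obtain ⟨h1, h2, h3⟩ := H s hs
  have hu : u s ^ j ∉ mx a s := fun hh => h1 (Ideal.IsPrime.mem_of_pow_mem inferInstance j hh)
  refine mem_sup_ix_of_mul w hw a s t _ hu ?_
  by_cases hss : s = s₀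
  · subst hss
    rw [← mul_assoc]
    refine Ideal.mul_mem_right _ _ ?_
    obtain ⟨y, hy, z, hz, he⟩ := Submodule.mem_sup.1 (xi_pow_mem w hw a s i n (c * j) t hn)
    obtain ⟨r, rfl⟩ := Ideal.mem_span_singleton'.1 hy
    rw [← he, mul_add]
    refine add_mem (Ideal.mem_sup_left ?_) (Ideal.mem_sup_right (Ideal.mul_mem_left _ _ hz))
    rw [mul_left_comm, pow_mul, ← mul_pow]
    exact Ideal.mul_mem_left _ _ (Ideal.pow_mem_pow h3 j)
  · refine Ideal.mem_sup_left ?_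
    rw [← Finset.mul_prod_erase _ _ (Finset.mem_erase.2 ⟨hss, Finset.mem_range.2 hs⟩), mul_left_comm,
      ← mul_assoc (u s ^ j), pow_mul, ← mul_pow]
    exact Ideal.mul_mem_left _ _ (Ideal.mul_mem_right _ _ (Ideal.pow_mem_pow h2 j))

end BootA

theorem boot {m : ℕ} (hm : 1 ≤ m) (w : Fin (m + 1) → ℕ) (hw : ∀ i, 1 ≤ w i)
    (a : Fin m → ℂ) (ha : ∀ j, a j ≠ 0) (S K D : ℕ) (hK : 1 ≤ K) (hD : ∀ i, w i ≤ D)
    (θp θ₀ : ℝ) (h₀ : θ₀ < θp) (h₁ : θ₀ < D) (G : Set (Rm m))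
    (hG : ∀ g ∈ G, g ∈ Vs w K D 1 ∧ g ∈ aI w a S θp)
    (hPT : ∀ p : Ideal (Rm m), p.IsPrime → Ideal.span G ≤ p → ∀ s, p ≤ mx a s →
      (X 0 - 1 : Rm m) ∈ p ∧ ∀ s', s' ≠ s → ¬ p ≤ mx a s') :
    ∃ η : ℝ, 0 < η ∧ ∀ θ θ' : ℝ, 0 ≤ θ → θ ≤ θ' → θ' ≤ θ + η → θ' ≤ θ₀ →
      Sep w a S K D θ → Amp w a S K D θ' := by
  obtain ⟨h, u, c, d, H⟩ := BootA.data w a S K D hK ((hw 0).trans (hD 0)) (Ideal.span G) hPT
  obtain ⟨M₀, hM₀⟩ := exists_nat_ge ((((c : ℝ) + 1) * D + S * c * d * θ₀) / (D - θ₀))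
  rw [div_le_iff₀ (by linarith)] at hM₀
  obtain ⟨M₁, hM₁, hM₂⟩ : ∃ M₁ : ℕ, 2 ≤ M₁ ∧
      ((c : ℝ) + 1) * D + S * c * d * θ₀ ≤ M₁ * (D - θ₀) :=
    ⟨M₀ + 2, by omega, by push_cast; nlinarith⟩
  have hMpos : (0 : ℝ) < (S * c * d + M₁ : ℕ) := by exact_mod_cast (by omega : 0 < S * c * d + M₁)
  refine ⟨(θp - θ₀) / (2 * (S * c * d + M₁ : ℕ)), div_pos (by linarith) (by linarith),
    fun θ θ' t0 t1 t2 t3 ⟨c₀, hS⟩ => ?_⟩
  obtain ⟨j₀, hj₀⟩ := exists_nat_ge (2 * c₀ * θ₀ / (θp - θ₀))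
  rw [div_le_iff₀ (by linarith)] at hj₀
  obtain ⟨j, hj1, hj2, hj3⟩ : ∃ j : ℕ, 1 ≤ j ∧ c₀ ≤ j ∧ 2 * c₀ * θ₀ ≤ j * (θp - θ₀) :=
    ⟨j₀ + c₀ + 1, by omega, by omega, by
      push_cast
      nlinarith [mul_nonneg (Nat.cast_nonneg (α := ℝ) c₀) (sub_pos.2 h₀).le]⟩
  set M := S * c * d + M₁ with hM
  obtain ⟨k', hk'⟩ : ∃ k', M * j = k' + c₀ + j := by
    refine ⟨M * j - j - c₀, ?_⟩
    have : 2 * j ≤ M * j := Nat.mul_le_mul_right _ (by omega)
    omega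
  have hk1 : 1 ≤ M * j := by omega
  have hj1' : (1 : ℝ) ≤ j := by exact_mod_cast hj1
  have hidx : ((M * j : ℕ) : ℝ) * θ' ≤ k' * θ + j * θp := by
    have e1 : ((M * j : ℕ) : ℝ) * ((θp - θ₀) / (2 * M)) = j * (θp - θ₀) / 2 := by
      push_cast
      field_simp
    have e2 : ((M * j : ℕ) : ℝ) * θ' ≤ ((M * j : ℕ) : ℝ) * (θ + (θp - θ₀) / (2 * M)) :=
      mul_le_mul_of_nonneg_left t2 (Nat.cast_nonneg _)
    rw [mul_add, e1] at e2
    have e3 : ((M * j : ℕ) : ℝ) * θ = k' * θ + (c₀ + j) * θ := by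
      rw [hk']
      push_cast
      ring
    have e4 : ((c₀ : ℝ) + j) * θ ≤ (c₀ + j) * θ₀ :=
      mul_le_mul_of_nonneg_left (t1.trans t3) (by positivity)
    linarith
  have key : ∀ (s₀ : ℕ) (i : Fin m), ∃ (n : ℕ) (v : Rm m), v ∈ Ideal.span G ∧
      (X i.succ - C ((s₀ : ℂ) * a i) : Rm m) ^ n * ∏ s ∈ (Finset.range S).erase s₀, h s ^ (c * j) - v
        ∈ Vs w K D (M * j) ∧
      (X i.succ - C ((s₀ : ℂ) * a i) : Rm m) ^ n * ∏ s ∈ (Finset.range S).erase s₀, h s ^ (c * j) - v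
        ∈ aI w a S ((M * j : ℕ) * θ') := by
    intro s₀ i
    have hwi : (0 : ℝ) < w i.succ := by exact_mod_cast hw i.succ
    have hwD : (w i.succ : ℝ) ≤ D := by exact_mod_cast hD i.succ
    set t : ℝ := (M * j : ℕ) * θ' with ht
    have ht0 : 0 ≤ t := mul_nonneg (Nat.cast_nonneg _) (t0.trans t1)
    have c1 : t ≤ ⌈t / w i.succ⌉₊ * w i.succ := by
      rw [← div_le_iff₀ hwi]
      exact Nat.le_ceil _
    have c2 : (⌈t / w i.succ⌉₊ : ℝ) * w i.succ ≤ t + w i.succ := by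
      have := (Nat.ceil_lt_add_one (div_nonneg ht0 hwi.le)).le
      have h2 := mul_le_mul_of_nonneg_right this hwi.le
      rwa [add_mul, div_mul_cancel₀ _ hwi.ne', one_mul] at h2
    have hγ := BootA.gamma_mem hm w hw ha S (Ideal.span G) h u c
      (fun s hs => ⟨(H s hs).2.1, (H s hs).2.2.2⟩) j (c * j + ⌈t / w i.succ⌉₊) t s₀ i
      (by push_cast; linarith)
    obtain ⟨y, hy, z, hz, he⟩ := Submodule.mem_sup.1 hγ
    obtain ⟨v, v1, v2, v3⟩ := BootA.reduce w a S K D θp θ G hG c₀ k' (hS k') j y hy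
    refine ⟨c * j + ⌈t / w i.succ⌉₊, v, Ideal.pow_le_self (by omega) v2, sub_mem ?_ (hk' ▸ v1), ?_⟩
    · have d1 : (X i.succ - C ((s₀ : ℂ) * a i) : Rm m) ^ (c * j + ⌈t / w i.succ⌉₊) ∈
          Vs w K D (M₁ * j) := by
        refine xi_pow_mem_Vs w K D _ i _ _ ?_
        have e1 : t ≤ (S * c * d + M₁) * j * θ₀ := by
          rw [ht, hM]
          push_cast
          exact mul_le_mul_of_nonneg_left t3 (by positivity)
        have e2 := mul_le_mul_of_nonneg_left hM₂ (Nat.cast_nonneg (α := ℝ) j)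
        have e3 : (c : ℝ) * j * w i.succ ≤ c * j * D := mul_le_mul_of_nonneg_left hwD (by positivity)
        have e4 : (D : ℝ) ≤ j * D := le_mul_of_one_le_left (by positivity) hj1'
        have : ((c * j + ⌈t / w i.succ⌉₊ : ℕ) : ℝ) * w i.succ ≤ (M₁ * j : ℕ) * D := by
          push_cast
          nlinarith
        exact_mod_cast this
      have d2 := Vs_prod ((Finset.range S).erase s₀) (fun s => h s ^ (c * j)) (fun _ => c * j * d)
        fun s hs => Vs_pow (H s (Finset.mem_range.1 (Finset.mem_of_mem_erase hs))).1 (c * j)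
      refine Vs_mono w K D ?_ (Vs_mul d1 d2)
      have e1 : ((Finset.range S).erase s₀).card ≤ S :=
        Finset.card_erase_le.trans (Finset.card_range S).le
      rw [Finset.sum_const, smul_eq_mul, hM]
      nlinarith [Nat.mul_le_mul_right (c * j * d) e1]
    · rw [← he, show y + z - v = z + (y - v) by ring]
      exact add_mem hz (aI_anti hidx v3)
  choose n v hv1 hv2 hv3 using key
  refine ⟨M * j, hk1, (fun g => g ^ (M * j)) '' G ∪ Set.range (fun q : ℕ × Fin m =>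
    (X q.2.succ - C ((q.1 : ℂ) * a q.2) : Rm m) ^ n q.1 q.2 *
      ∏ s ∈ (Finset.range S).erase q.1, h s ^ (c * j) - v q.1 q.2), ?_, fun s hs p hp h1 h2 => ?_⟩
  · rintro _ (⟨g, hg, rfl⟩ | ⟨q, rfl⟩)
    · refine ⟨by simpa using Vs_pow (hG g hg).1 (M * j), aI_anti ?_ (aI_pow (hG g hg).2 _)⟩
      exact mul_le_mul_of_nonneg_left (t3.trans h₀.le) (Nat.cast_nonneg _)
    · exact ⟨hv2 q.1 q.2, hv3 q.1 q.2⟩
  · have hI : Ideal.span G ≤ p := Ideal.span_le.2 fun g hg =>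
      hp.mem_of_pow_mem _ (h1 (Ideal.subset_span (Or.inl ⟨g, hg, rfl⟩)))
    refine mx_le_of a s p (hPT p hp hI s h2).1 fun i => ?_
    have e1 := add_mem (h1 (Ideal.subset_span (Or.inr ⟨(s, i), rfl⟩))) (hI (hv1 s i))
    rw [sub_add_cancel] at e1
    rcases hp.mem_or_mem e1 with e2 | e2
    · exact hp.mem_of_pow_mem _ e2
    · obtain ⟨s', hs', e3⟩ := Ideal.IsPrime.prod_mem_iff.1 e2
      exact absurd (h2 (hp.mem_of_pow_mem _ e3))
        ((H s' (Finset.mem_range.1 (Finset.mem_of_mem_erase hs'))).2.2.1 s hs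
          (Finset.ne_of_mem_erase hs').symm)

end Crest.Agent.R11
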