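import Crest.Agent.R11.Defs

namespace Crest.Agent.R11

section

variable {A R : Type*} [CommRing A] [IsDomain A] [CommRing R] [Algebra A R]

/-- saturation with respect to the nonzero elements of `A` -/
def coreSat (V : Submodule A R) (J : Ideal R) : Submodule A R where
  carrier := {f | ∃ u : A, u ≠ 0 ∧ ∃ v ∈ V, ∃ y ∈ J, u • f = v + y}
  add_mem' := by
    rintro f g ⟨u, hu, v, hv, y, hy, h⟩ ⟨u', hu', v', hv', y', hy', h'⟩
    refine ⟨u * u', mul_ne_zero hu hu', u' • v + u • v', V.add_mem (V.smul_mem _ hv)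
      (V.smul_mem _ hv'), u' • y + u • y', J.add_mem (J.smul_of_tower_mem _ hy)
      (J.smul_of_tower_mem _ hy'), ?_⟩
    rw [smul_add, mul_smul u u' g, h', mul_comm, mul_smul, h, smul_add, smul_add]
    abel
  zero_mem' := ⟨1, one_ne_zero, 0, V.zero_mem, 0, J.zero_mem, by simp⟩
  smul_mem' := by
    rintro c f ⟨u, hu, v, hv, y, hy, h⟩
    refine ⟨u, hu, c • v, V.smul_mem _ hv, c • y, J.smul_of_tower_mem _ hy, ?_⟩
    rw [smul_comm, h, smul_add]

theorem coreSat_left {V : Submodule A R} {J : Ideal R} {v : R} (hv : v ∈ V) : v ∈ coreSat V J :=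
  ⟨1, one_ne_zero, v, hv, 0, J.zero_mem, by simp⟩

theorem coreSat_right {V : Submodule A R} {J : Ideal R} {y : R} (hy : y ∈ J) : y ∈ coreSat V J :=
  ⟨1, one_ne_zero, 0, V.zero_mem, y, hy, by simp⟩

theorem coreSat_of_smul {V : Submodule A R} {J : Ideal R} {u : A} (hu : u ≠ 0) {f : R}
    (h : u • f ∈ coreSat V J) : f ∈ coreSat V J := by
  obtain ⟨u', hu', v, hv, y, hy, h⟩ := h
  exact ⟨u' * u, mul_ne_zero hu' hu, v, hv, y, hy, by rw [mul_smul, h]⟩

theorem coreSat_mono {V V' : Submodule A R} (h : V ≤ V') (J : Ideal R) :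
    coreSat V J ≤ coreSat V' J := by
  rintro f ⟨u, hu, v, hv, y, hy, e⟩
  exact ⟨u, hu, v, h hv, y, hy, e⟩

theorem core_span (G : Set R) (V : ℕ → Submodule A R) (hV : Monotone V)
    (hG : ∀ g ∈ G, ∀ k, ∀ v ∈ V k, g * v ∈ V (k + 1)) (c : ℕ) (J : Ideal R)
    (H : ∀ f : R, ∃ u : A, u ≠ 0 ∧ ∃ v ∈ V c, ∃ y ∈ Ideal.span G ⊔ J, u • f = v + y)
    (k : ℕ) (f : R) :
    ∃ u : A, u ≠ 0 ∧ ∃ v ∈ V (c + k), ∃ y ∈ (Ideal.span G) ^ k ⊔ J, u • f = v + y := by
  have h1 : ∀ k, ∀ b ∈ (Ideal.span G) ^ k,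
      b ∈ coreSat (V (c + k)) ((Ideal.span G) ^ (k + 1) ⊔ J) := by
    intro k
    induction k with
    | zero => intro b _; rw [zero_add, pow_one]; exact H b
    | succ k ih =>
      have h2 : ∀ a ∈ Ideal.span G, ∀ b ∈ (Ideal.span G) ^ k,
          a * b ∈ coreSat (V (c + (k + 1))) ((Ideal.span G) ^ (k + 1 + 1) ⊔ J) := by
        intro a ha
        induction ha using Submodule.span_induction with
        | mem g hg =>
          intro b hb
          obtain ⟨u, hu, v, hv, y, hy, e⟩ := ih b hb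
          refine ⟨u, hu, g * v, hG g hg _ v hv, g * y, ?_, by rw [← mul_smul_comm, e, mul_add]⟩
          obtain ⟨y1, hy1, y2, hy2, rfl⟩ := Submodule.mem_sup.1 hy
          rw [mul_add]
          refine Submodule.add_mem_sup ?_ (J.mul_mem_left _ hy2)
          rw [pow_succ']
          exact Ideal.mul_mem_mul (Ideal.subset_span hg) hy1
        | zero => intro b _; simp
        | add a a' _ _ ha ha' =>
          intro b hb
          rw [add_mul]
          exact Submodule.add_mem _ (ha b hb) (ha' b hb)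
        | smul r a _ ha =>
          intro b hb
          rw [smul_eq_mul, mul_comm r, mul_assoc]
          exact ha _ (Ideal.mul_mem_left _ _ hb)
      intro b hb
      rw [pow_succ'] at hb
      exact Submodule.mul_induction_on hb (fun a ha b hb => h2 a ha b hb)
        (fun x y hx hy => Submodule.add_mem _ hx hy)
  change f ∈ coreSat (V (c + k)) ((Ideal.span G) ^ k ⊔ J)
  induction k with
  | zero => exact coreSat_right (by simp)
  | succ k ih =>
    obtain ⟨u, hu, v, hv, y, hy, e⟩ := ih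
    obtain ⟨y1, hy1, y2, hy2, rfl⟩ := Submodule.mem_sup.1 hy
    refine coreSat_of_smul hu ?_
    have hle : V (c + k) ≤ V (c + (k + 1)) := hV (by omega)
    rw [e]
    exact Submodule.add_mem _ (coreSat_left (hle hv)) (Submodule.add_mem _
      (coreSat_mono hle _ (h1 k y1 hy1)) (coreSat_right (Submodule.mem_sup_right hy2)))

theorem fin_span (x : Set R) (hx : x.Finite) (hgen : Algebra.adjoin A x = ⊤) (n : Ideal R)
    (halg : ∀ y ∈ x, ∃ p : Polynomial A, p ≠ 0 ∧ Polynomial.aeval y p ∈ n) (N : ℕ) :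
    ∃ r : Finset R, ∀ f : R, ∃ u : A, u ≠ 0 ∧
      ∃ v ∈ Submodule.span A (r : Set R), ∃ y ∈ n ^ N, u • f = v + y := by
  classical
  let π := Ideal.Quotient.mkₐ A (n ^ N)
  have h1 : ∀ y ∈ x, ∃ u : A, u ≠ 0 ∧ IsIntegral A (u • π y) := by
    intro y hy
    obtain ⟨p, hp, hpy⟩ := halg y hy
    refine IsAlgebraic.exists_integral_multiple ⟨p ^ N, pow_ne_zero _ hp, ?_⟩
    rw [Polynomial.aeval_algHom_apply, map_pow]
    exact Ideal.Quotient.eq_zero_iff_mem.2 (Ideal.pow_mem_pow hpy N)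
  choose! u hu hint using h1
  let t := (fun y => u y • π y) '' x
  obtain ⟨s, hs⟩ : (Algebra.adjoin A t).toSubmodule.FG :=
    fg_adjoin_of_finite (hx.image _) (by rintro _ ⟨y, hy, rfl⟩; exact hint y hy)
  choose σ hσ using Ideal.Quotient.mkₐ_surjective A (n ^ N)
  refine ⟨s.image σ, fun f => ?_⟩
  have h2 : ∃ u' : A, u' ≠ 0 ∧ u' • π f ∈ Algebra.adjoin A t := by
    have hf : f ∈ Algebra.adjoin A x := by rw [hgen]; trivial
    induction hf using Algebra.adjoin_induction with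
    | mem y hy => exact ⟨u y, hu y hy, Algebra.subset_adjoin ⟨y, hy, rfl⟩⟩
    | algebraMap r => exact ⟨1, one_ne_zero, by
        rw [one_smul, AlgHom.commutes]; exact Subalgebra.algebraMap_mem _ r⟩
    | add a b _ _ ha hb =>
      obtain ⟨u1, h1, ha⟩ := ha
      obtain ⟨u2, h2, hb⟩ := hb
      refine ⟨u1 * u2, mul_ne_zero h1 h2, ?_⟩
      rw [map_add, smul_add, mul_smul u1 u2 (π b), mul_comm, mul_smul]
      exact add_mem (Subalgebra.smul_mem _ ha _) (Subalgebra.smul_mem _ hb _)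
    | mul a b _ _ ha hb =>
      obtain ⟨u1, h1, ha⟩ := ha
      obtain ⟨u2, h2, hb⟩ := hb
      refine ⟨u1 * u2, mul_ne_zero h1 h2, ?_⟩
      rw [map_mul, ← smul_mul_smul_comm]
      exact mul_mem ha hb
  obtain ⟨u', hu', h3⟩ := h2
  have h4 : u' • π f ∈ Submodule.map π.toLinearMap (Submodule.span A (s.image σ : Set R)) := by
    rw [Submodule.map_span, Finset.coe_image, Set.image_image]
    have : (fun q => π.toLinearMap (σ q)) = id := funext hσ
    rw [this, Set.image_id, hs]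
    exact h3
  obtain ⟨v, hv, hvf⟩ := h4
  refine ⟨u', hu', v, hv, u' • f - v, ?_, by abel⟩
  rw [← Ideal.Quotient.eq_zero_iff_mem]
  change π (u' • f - v) = 0
  rw [map_sub, map_smul, ← hvf]
  exact sub_self _

theorem exists_unit_mod (x : Set R) (hgen : Algebra.adjoin A x = ⊤) (q : Ideal R)
    (hq : q.IsPrime) (hinj : ∀ u : A, algebraMap A R u ∈ q → u = 0)
    (halg : ∀ y ∈ x, ∃ p : Polynomial A, p ≠ 0 ∧ Polynomial.aeval y p ∈ q)
    (w : R) (hw : w ∉ q) :
    ∃ u : A, u ≠ 0 ∧ ∃ w' : R, algebraMap A R u - w' * w ∈ q := by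
  let π := Ideal.Quotient.mkₐ A q
  have h1 : ∀ f : R, IsAlgebraic A (π f) := by
    intro f
    have hf : f ∈ Algebra.adjoin A x := by rw [hgen]; trivial
    induction hf using Algebra.adjoin_induction with
    | mem y hy =>
      obtain ⟨p, hp, hpy⟩ := halg y hy
      refine ⟨p, hp, ?_⟩
      rw [Polynomial.aeval_algHom_apply]
      exact Ideal.Quotient.eq_zero_iff_mem.2 hpy
    | algebraMap r => rw [AlgHom.commutes]; exact isAlgebraic_algebraMap r
    | add a b _ _ ha hb => rw [map_add]; exact ha.add hb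
    | mul a b _ _ ha hb => rw [map_mul]; exact ha.mul hb
  have h0 : π w ≠ 0 := fun h => hw (Ideal.Quotient.eq_zero_iff_mem.1 h)
  obtain ⟨u, hu, c, hc⟩ := (h1 w).exists_nonzero_dvd (mem_nonZeroDivisors_of_ne_zero h0)
  obtain ⟨w', rfl⟩ := Ideal.Quotient.mkₐ_surjective A q c
  refine ⟨u, hu, w', ?_⟩
  rw [← Ideal.Quotient.eq_zero_iff_mem]
  change π _ = 0
  rw [map_sub, AlgHom.commutes, hc, map_mul, mul_comm, sub_self]

/-- The counting lemma: if `span G` is primary along `n` (up to denominators from `A`), then the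
filtration `V` spans `R` modulo `(span G)^k` and any power of `n`. -/
theorem sat_span (x : Set R) (hx : x.Finite) (hgen : Algebra.adjoin A x = ⊤) (n : Ideal R)
    (halg : ∀ y ∈ x, ∃ p : Polynomial A, p ≠ 0 ∧ Polynomial.aeval y p ∈ n)
    (G : Set R) (V : ℕ → Submodule A R) (hV : Monotone V)
    (hG : ∀ g ∈ G, ∀ k, ∀ v ∈ V k, g * v ∈ V (k + 1)) (hex : ∀ f : R, ∃ k, f ∈ V k)
    (N : ℕ) (u : A) (hu : u ≠ 0) (w : R) (hw : ∀ z ∈ n ^ N, w * z ∈ Ideal.span G)
    (huw : algebraMap A R u - w ∈ n) :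
    ∃ c : ℕ, ∀ (k N' : ℕ) (f : R), ∃ u' : A, u' ≠ 0 ∧ ∃ v ∈ V (c + k),
      ∃ y ∈ (Ideal.span G) ^ k ⊔ n ^ N', u' • f = v + y := by
  obtain ⟨r, hr⟩ := fin_span x hx hgen n halg N
  choose lv hlv using hex
  have hrc : Submodule.span A (r : Set R) ≤ V (r.sup lv) :=
    Submodule.span_le.2 fun f hf => hV (Finset.le_sup hf) (hlv f)
  refine ⟨r.sup lv, fun k N' f => core_span G V hV hG _ _ (fun g => ?_) k f⟩
  obtain ⟨u1, hu1, v, hv, z, hz, e⟩ := hr g
  change g ∈ coreSat _ _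
  refine coreSat_of_smul hu1 ?_
  rw [e]
  refine Submodule.add_mem _ (coreSat_left (hrc hv)) (coreSat_of_smul (pow_ne_zero N' hu) ?_)
  refine coreSat_right ?_
  obtain ⟨s, hs⟩ := sub_dvd_pow_sub_pow (algebraMap A R u) (algebraMap A R u - w) N'
  have : u ^ N' • z = s * (w * z) + (algebraMap A R u - w) ^ N' * z := by
    rw [Algebra.smul_def, map_pow]
    linear_combination z * hs
  rw [this]
  exact Submodule.add_mem_sup (Ideal.mul_mem_left _ _ (hw z hz))
    (Ideal.mul_mem_right _ _ (Ideal.pow_mem_pow huw N'))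

end

theorem loc_nil {R : Type*} [CommRing R] [IsNoetherianRing R] (I J M : Ideal R) (hM : M.IsPrime)
    (h : ∀ p ∈ I.minimalPrimes, p ≤ M → J ≤ p) :
    ∃ (N : ℕ) (w : R), w ∉ M ∧ ∀ z ∈ J ^ N, w * z ∈ I := by
  classical
  have hfin := I.finite_minimalPrimes_of_isNoetherianRing R
  have h1 : ∀ p : Ideal R, ∃ e : R, e ∉ M ∧ (¬ p ≤ M → e ∈ p) := by
    intro p
    by_cases hp : p ≤ M
    · exact ⟨1, (Ideal.ne_top_iff_one M).1 hM.ne_top, fun h => absurd hp h⟩
    · obtain ⟨e, he, heM⟩ := SetLike.not_le_iff_exists.1 hp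
      exact ⟨e, heM, fun _ => he⟩
  choose e heM he using h1
  let w₀ := ∏ p ∈ hfin.toFinset, e p
  have hw₀ : w₀ ∉ M := fun hm => by
    obtain ⟨p, -, hp⟩ := Ideal.IsPrime.prod_mem_iff.1 hm
    exact heM p hp
  have h2 : Ideal.span {w₀} * J ≤ I.radical := by
    rw [← Ideal.sInf_minimalPrimes]
    refine le_sInf fun p hp => ?_
    by_cases hpM : p ≤ M
    · exact Ideal.mul_le_right.trans (h p hp hpM)
    · refine Ideal.mul_le_left.trans ((Ideal.span_singleton_le_iff_mem _).2 ?_)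
      exact Ideal.mem_of_dvd _ (Finset.dvd_prod_of_mem e (hfin.mem_toFinset.2 hp)) (he p hpM)
  obtain ⟨N, hN⟩ := I.exists_radical_pow_le_of_fg (IsNoetherian.noetherian _)
  refine ⟨N, w₀ ^ N, fun hm => hw₀ (hM.mem_of_pow_mem N hm), fun z hz => ?_⟩
  refine hN (Ideal.pow_right_mono h2 N ?_)
  rw [mul_pow]
  exact Ideal.mul_mem_mul (Ideal.pow_mem_pow (Ideal.mem_span_singleton_self _) N) hz

/-- An element lying in all minimal primes below `M` and outside finitely many primes. -/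
theorem exists_sep {R κ : Type*} [CommRing R] [IsNoetherianRing R] (I M : Ideal R)
    (T : Finset κ) (M' : κ → Ideal R) (hM' : ∀ k ∈ T, (M' k).IsPrime)
    (h : ∀ p ∈ I.minimalPrimes, p ≤ M → ∀ k ∈ T, ¬ p ≤ M' k) :
    ∃ y : R, (∀ p ∈ I.minimalPrimes, p ≤ M → y ∈ p) ∧ ∀ k ∈ T, y ∉ M' k := by
  classical
  rcases T.eq_empty_or_nonempty with rfl | ⟨k₀, -⟩
  · exact ⟨0, fun p _ _ => p.zero_mem, by simp⟩
  have hfin := I.finite_minimalPrimes_of_isNoetherianRing R
  let F := hfin.toFinset.filter (· ≤ M)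
  have h1 : ¬ (((∏ p ∈ F, p : Ideal R) : Set R) ⊆ ⋃ k ∈ (T : Set κ), M' k) := by
    rw [Ideal.subset_union_prime k₀ k₀ fun k hk _ _ => hM' k hk]
    rintro ⟨k, hk, hle⟩
    obtain ⟨p, hp, hpk⟩ := (hM' k hk).prod_le.1 hle
    rw [Finset.mem_filter, Set.Finite.mem_toFinset] at hp
    exact h p hp.1 hp.2 k hk hpk
  obtain ⟨y, hy, hyn⟩ := Set.not_subset.1 h1
  refine ⟨y, fun p hp hpM => ?_, fun k hk hyk => hyn (Set.mem_biUnion hk hyk)⟩
  have hpF : p ∈ F := Finset.mem_filter.2 ⟨hfin.mem_toFinset.2 hp, hpM⟩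
  exact (Ideal.prod_le_inf.trans (Finset.inf_le (f := fun p => p) hpF)) hy

end Crest.Agent.R11
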