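import Crest.Agent.R11.Defs

namespace Crest.Agent.R11

theorem simplex_lower {n : ℕ} {w : Fin n → ℕ} (hw : ∀ i, 1 ≤ w i) (t : ℕ) :
    (t : ℝ) ^ n ≤ (n.factorial : ℝ) * (∏ i, (w i : ℝ)) * (simplex w t).card := by
  sorry

theorem simplex_upper {n : ℕ} {w : Fin n → ℕ} (hw : ∀ i, 1 ≤ w i) (t : ℕ) :
    (n.factorial : ℝ) * (∏ i, (w i : ℝ)) * (simplex w t).card ≤ ((t : ℝ) + ∑ i, (w i : ℝ)) ^ n := by
  sorry

theorem simplex_card_le {n : ℕ} (w : Fin n → ℕ) (t : ℕ) : (simplex w t).card ≤ (t + 1) ^ n := by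
  sorry

theorem le_of_forall_pow {x y : ℝ} (n : ℕ) (c : ℝ)
    (h : ∀ k : ℕ, 1 ≤ k → (k : ℝ) ^ n * x ≤ ((k : ℝ) + c) ^ n * y) : x ≤ y := by
  sorry

theorem den_le {m : ℕ} (w : Fin (m + 1) → ℕ) (hw : ∀ i, 1 ≤ w i) (D : ℕ) :
    (den w D : ℝ) ≤ Real.exp (6 * m * D / w 0) := by
  sorry

theorem den_pos {m : ℕ} (w : Fin (m + 1) → ℕ) (D : ℕ) : 0 < den w D := by
  sorry

end Crest.Agent.R11
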