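import Mathlib

/-!
Row 11 (irrationality exponent of π): definitions.

`Rm m = ℂ[Y, X₁, …, X_m]` with `Y = X 0`.  Derivations `Dv m 0 = Y∂_Y + ∑ ∂_j`, `Dv m j = ∂_j`.
-/

namespace Crest.Agent.R11

open MvPolynomial

section Words

variable {R ι : Type*} [CommRing R] [Algebra ℂ R]

/-- Apply a word of derivations, first letter first. -/
def dw (D : ι → Derivation ℂ R R) : List ι → R → R
  | [], f => f
  | i :: u, f => dw D u (D i f)

/-- Weight of a word. -/
def lwt (ω : ι → ℕ) (u : List ι) : ℕ := (u.map ω).sum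

@[simp] theorem dw_nil (D : ι → Derivation ℂ R R) (f : R) : dw D [] f = f := rfl

@[simp] theorem dw_cons (D : ι → Derivation ℂ R R) (i : ι) (u : List ι) (f : R) :
    dw D (i :: u) f = dw D u (D i f) := rfl

@[simp] theorem lwt_nil (ω : ι → ℕ) : lwt ω [] = 0 := rfl

@[simp] theorem lwt_cons (ω : ι → ℕ) (i : ι) (u : List ι) : lwt ω (i :: u) = ω i + lwt ω u := by
  simp [lwt]

theorem lwt_append (ω : ι → ℕ) (u v : List ι) : lwt ω (u ++ v) = lwt ω u + lwt ω v := by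
  simp [lwt]

theorem dw_append (D : ι → Derivation ℂ R R) (u v : List ι) (f : R) :
    dw D (u ++ v) f = dw D v (dw D u f) := by
  induction u generalizing f with
  | nil => rfl
  | cons i u ih => simp [ih]

theorem dw_add (D : ι → Derivation ℂ R R) (u : List ι) (f g : R) :
    dw D u (f + g) = dw D u f + dw D u g := by
  induction u generalizing f g with
  | nil => rfl
  | cons i u ih => simp [ih]

@[simp] theorem dw_zero (D : ι → Derivation ℂ R R) (u : List ι) : dw D u (0 : R) = 0 := by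
  induction u with
  | nil => rfl
  | cons i u ih => simp [ih]

theorem dw_smul (D : ι → Derivation ℂ R R) (u : List ι) (c : ℂ) (f : R) :
    dw D u (c • f) = c • dw D u f := by
  induction u generalizing f with
  | nil => rfl
  | cons i u ih => simp [ih]

theorem dw_neg (D : ι → Derivation ℂ R R) (u : List ι) (f : R) : dw D u (-f) = -dw D u f := by
  induction u generalizing f with
  | nil => rfl
  | cons i u ih => simp [ih]

theorem dw_sub (D : ι → Derivation ℂ R R) (u : List ι) (f g : R) :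
    dw D u (f - g) = dw D u f - dw D u g := by
  rw [sub_eq_add_neg, dw_add, dw_neg, sub_eq_add_neg]

theorem dw_sum {κ : Type*} (D : ι → Derivation ℂ R R) (u : List ι) (s : Finset κ) (f : κ → R) :
    dw D u (∑ k ∈ s, f k) = ∑ k ∈ s, dw D u (f k) := by
  classical
  induction s using Finset.induction_on with
  | empty => simp
  | insert a s ha ih => rw [Finset.sum_insert ha, Finset.sum_insert ha, dw_add, ih]

theorem dw_mul_mem (D : ι → Derivation ℂ R R) (A : Set ι) (ω : ι → ℕ) (q : Ideal R) :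
    ∀ (u : List ι) (f g : R) (t t' : ℝ),
      (∀ v : List ι, (∀ i ∈ v, i ∈ A) → (lwt ω v : ℝ) < t → dw D v f ∈ q) →
      (∀ v : List ι, (∀ i ∈ v, i ∈ A) → (lwt ω v : ℝ) < t' → dw D v g ∈ q) →
      (∀ i ∈ u, i ∈ A) → (lwt ω u : ℝ) < t + t' → dw D u (f * g) ∈ q := by
  intro u
  induction u with
  | nil =>
    intro f g t t' hf hg _ h
    simp only [lwt_nil, Nat.cast_zero] at h
    by_cases ht : 0 < t
    · exact q.mul_mem_right _ (by simpa using hf [] (by simp) (by simpa using ht))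
    · exact q.mul_mem_left _ (by simpa using hg [] (by simp) (by simp; linarith))
  | cons i u ih =>
    intro f g t t' hf hg hu h
    have hi : i ∈ A := hu i (by simp)
    have hu' : ∀ j ∈ u, j ∈ A := fun j hj => hu j (by simp [hj])
    simp only [lwt_cons, Nat.cast_add] at h
    rw [dw_cons, Derivation.leibniz, dw_add, smul_eq_mul, smul_eq_mul]
    refine q.add_mem ?_ ?_
    · refine ih f (D i g) t (t' - ω i) hf ?_ hu' (by linarith)
      intro v hv hvt
      have := hg (i :: v) (by simpa [hi] using hv) (by simp; linarith)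
      simpa using this
    · refine ih g (D i f) t' (t - ω i) hg ?_ hu' (by linarith)
      intro v hv hvt
      have := hf (i :: v) (by simpa [hi] using hv) (by simp; linarith)
      simpa using this

/-- The ideal of elements of index at least `t` along `q`: all derivatives along words over `A`
of weight `< t` lie in `q`. -/
def idx (D : ι → Derivation ℂ R R) (A : Set ι) (ω : ι → ℕ) (q : Ideal R) (t : ℝ) : Ideal R where
  carrier := {f | ∀ u : List ι, (∀ i ∈ u, i ∈ A) → (lwt ω u : ℝ) < t → dw D u f ∈ q}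
  add_mem' := by
    intro f g hf hg u hu ht
    rw [dw_add]; exact q.add_mem (hf u hu ht) (hg u hu ht)
  zero_mem' := by intro u _ _; simp
  smul_mem' := by
    intro r f hf u hu ht
    refine dw_mul_mem D A ω q u r f 0 t ?_ hf hu (by simpa using ht)
    intro v _ hv
    exact absurd hv (not_lt.2 (Nat.cast_nonneg _))

theorem mem_idx {D : ι → Derivation ℂ R R} {A : Set ι} {ω : ι → ℕ} {q : Ideal R} {t : ℝ} {f : R} :
    f ∈ idx D A ω q t ↔ ∀ u : List ι, (∀ i ∈ u, i ∈ A) → (lwt ω u : ℝ) < t → dw D u f ∈ q :=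
  Iff.rfl

theorem idx_mul {D : ι → Derivation ℂ R R} {A : Set ι} {ω : ι → ℕ} {q : Ideal R} {t t' : ℝ}
    {f g : R} (hf : f ∈ idx D A ω q t) (hg : g ∈ idx D A ω q t') :
    f * g ∈ idx D A ω q (t + t') :=
  fun u hu ht => dw_mul_mem D A ω q u f g t t' hf hg hu ht

theorem idx_anti {D : ι → Derivation ℂ R R} {A : Set ι} {ω : ι → ℕ} {q : Ideal R} {t t' : ℝ}
    (h : t ≤ t') : idx D A ω q t' ≤ idx D A ω q t :=
  fun _ hf u hu ht => hf u hu (lt_of_lt_of_le ht h)

theorem mem_idx_of_nonpos {D : ι → Derivation ℂ R R} {A : Set ι} {ω : ι → ℕ} {q : Ideal R} {t : ℝ}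
    (h : t ≤ 0) (f : R) : f ∈ idx D A ω q t :=
  fun _ _ ht => absurd (lt_of_lt_of_le ht h) (not_lt.2 (Nat.cast_nonneg _))

theorem idx_le {D : ι → Derivation ℂ R R} {A : Set ι} {ω : ι → ℕ} {q : Ideal R} {t : ℝ}
    (h : 0 < t) : idx D A ω q t ≤ q :=
  fun _ hf => by simpa using hf [] (by simp) (by simpa using h)

theorem idx_pow {D : ι → Derivation ℂ R R} {A : Set ι} {ω : ι → ℕ} {q : Ideal R} {t : ℝ}
    {f : R} (hf : f ∈ idx D A ω q t) (n : ℕ) : f ^ n ∈ idx D A ω q (n * t) := by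
  induction n with
  | zero => exact mem_idx_of_nonpos (by simp) _
  | succ n ih =>
    rw [pow_succ]
    have := idx_mul ih hf
    convert this using 2
    push_cast; ring

theorem idx_prod {κ : Type*} {D : ι → Derivation ℂ R R} {A : Set ι} {ω : ι → ℕ} {q : Ideal R}
    (s : Finset κ) (f : κ → R) (t : κ → ℝ) (hf : ∀ k ∈ s, f k ∈ idx D A ω q (t k)) :
    ∏ k ∈ s, f k ∈ idx D A ω q (∑ k ∈ s, t k) := by
  classical
  induction s using Finset.induction_on with
  | empty => exact mem_idx_of_nonpos (by simp) _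
  | insert a s ha ih =>
    rw [Finset.prod_insert ha, Finset.sum_insert ha]
    exact idx_mul (hf a (by simp)) (ih fun k hk => hf k (by simp [hk]))

theorem D_mem_idx {D : ι → Derivation ℂ R R} {A : Set ι} {ω : ι → ℕ} {q : Ideal R} {t : ℝ}
    {f : R} (hf : f ∈ idx D A ω q t) {i : ι} (hi : i ∈ A) : D i f ∈ idx D A ω q (t - ω i) := by
  intro v hv hvt
  have := hf (i :: v) (by simpa [hi] using hv) (by simp; linarith)
  simpa using this

theorem dw_mem_idx {D : ι → Derivation ℂ R R} {A : Set ι} {ω : ι → ℕ} {q : Ideal R} {t : ℝ}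
    {f : R} (hf : f ∈ idx D A ω q t) {u : List ι} (hu : ∀ i ∈ u, i ∈ A) :
    dw D u f ∈ idx D A ω q (t - lwt ω u) := by
  intro v hv hvt
  rw [← dw_append]
  refine hf (u ++ v) ?_ ?_
  · intro i hi
    rcases List.mem_append.1 hi with h | h
    exacts [hu i h, hv i h]
  · rw [lwt_append]; push_cast; linarith

theorem le_idx_one {D : ι → Derivation ℂ R R} {A : Set ι} {ω : ι → ℕ} (hω : ∀ i, 1 ≤ ω i)
    {q : Ideal R} : q ≤ idx D A ω q 1 := by
  intro f hf u _ ht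
  cases u with
  | nil => simpa using hf
  | cons i u =>
    exfalso
    have h1 : (1 : ℝ) ≤ ω i := by exact_mod_cast hω i
    have h2 : (0 : ℝ) ≤ lwt ω u := Nat.cast_nonneg _
    simp only [lwt_cons, Nat.cast_add] at ht
    linarith

theorem pow_le_idx_of_le {D : ι → Derivation ℂ R R} {A : Set ι} {ω : ι → ℕ} {q I : Ideal R} {e : ℝ}
    (h : I ≤ idx D A ω q e) (n : ℕ) : I ^ n ≤ idx D A ω q (n * e) := by
  induction n with
  | zero => intro f _; exact mem_idx_of_nonpos (by simp) _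
  | succ n ih =>
    rw [pow_succ]
    refine Ideal.mul_le.2 fun f hf g hg => ?_
    have := idx_mul (ih hf) (h hg)
    convert this using 2
    push_cast; ring

theorem pow_le_idx {D : ι → Derivation ℂ R R} {A : Set ι} {ω : ι → ℕ} (hω : ∀ i, 1 ≤ ω i)
    {q : Ideal R} {t : ℝ} {n : ℕ} (h : t ≤ n) : q ^ n ≤ idx D A ω q t :=
  (pow_le_idx_of_le (le_idx_one hω) n).trans (idx_anti (by simpa using h))

/-- The monomial `∏ f i ^ β i`. -/
def mon [Fintype ι] (f : ι → R) (β : ι → ℕ) : R := ∏ i, f i ^ β i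

end Words

/-- Lattice points of the simplex `∑ w i * β i ≤ t`. -/
def simplex {n : ℕ} (w : Fin n → ℕ) (t : ℕ) : Finset (Fin n → ℕ) :=
  (Fintype.piFinset fun _ => Finset.range (t + 1)).filter (fun β => ∑ i, w i * β i ≤ t)

theorem mem_simplex {n : ℕ} {w : Fin n → ℕ} (hw : ∀ i, 1 ≤ w i) {t : ℕ} {β : Fin n → ℕ} :
    β ∈ simplex w t ↔ ∑ i, w i * β i ≤ t := by
  simp only [simplex, Finset.mem_filter, Fintype.mem_piFinset, Finset.mem_range,
    and_iff_right_iff_imp]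
  intro h i
  have h1 : w i * β i ≤ ∑ i, w i * β i :=
    Finset.single_le_sum (f := fun i => w i * β i) (fun _ _ => Nat.zero_le _) (Finset.mem_univ i)
  have h2 : β i ≤ w i * β i := Nat.le_mul_of_pos_left _ (hw i)
  omega

/-- The polynomial ring `ℂ[Y, X₁, …, X_m]`, `Y = X 0`. -/
abbrev Rm (m : ℕ) := MvPolynomial (Fin (m + 1)) ℂ

/-- The derivations: `Dv m 0 = Y∂_Y + ∑_j ∂_j`, and `Dv m j = ∂_j` for `j ≠ 0`. -/
noncomputable def Dv (m : ℕ) (i : Fin (m + 1)) : Derivation ℂ (Rm m) (Rm m) :=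
  if i = 0 then mkDerivation ℂ (fun j => if j = 0 then X 0 else 1) else pderiv i

theorem Dv_of_ne {m : ℕ} {i : Fin (m + 1)} (h : i ≠ 0) : Dv m i = pderiv i := if_neg h

theorem Dv_succ {m : ℕ} (j : Fin m) : Dv m j.succ = pderiv j.succ := if_neg (Fin.succ_ne_zero j)

@[simp] theorem Dv_zero_X_zero {m : ℕ} : Dv m 0 (X 0) = X 0 := by simp [Dv]

theorem Dv_zero_X_of_ne {m : ℕ} {i : Fin (m + 1)} (h : i ≠ 0) : Dv m 0 (X i) = 1 := by
  simp [Dv, h]

@[simp] theorem Dv_C {m : ℕ} (i : Fin (m + 1)) (c : ℂ) : Dv m i (C c) = 0 :=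
  derivation_C _ _

theorem Dv_zero_apply {m : ℕ} (f : Rm m) :
    Dv m 0 f = X 0 * pderiv 0 f + ∑ j : Fin m, pderiv j.succ f := by
  induction f using MvPolynomial.induction_on with
  | C c => simp
  | add f g hf hg => simp only [map_add, hf, hg, Finset.sum_add_distrib]; ring
  | mul_X f i hf =>
    simp only [Derivation.leibniz, smul_eq_mul, hf, Finset.sum_add_distrib, ← Finset.mul_sum]
    refine Fin.cases ?_ (fun k => ?_) i
    · simp [pderiv_X, Pi.single_apply, Fin.succ_ne_zero]; ring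
    · rw [Dv_zero_X_of_ne (Fin.succ_ne_zero k)]
      simp [pderiv_X, Pi.single_apply, Fin.succ_ne_zero]; ring

/-- The `s`-th point `(1, s a₁, …, s a_m)`. -/
noncomputable def pt {m : ℕ} (a : Fin m → ℂ) (s : ℕ) : Fin (m + 1) → ℂ :=
  Fin.cons 1 (fun j => (s : ℂ) * a j)

@[simp] theorem pt_zero {m : ℕ} (a : Fin m → ℂ) (s : ℕ) : pt a s 0 = 1 := rfl

@[simp] theorem pt_succ {m : ℕ} (a : Fin m → ℂ) (s : ℕ) (j : Fin m) :
    pt a s j.succ = (s : ℂ) * a j := rfl

/-- The maximal ideal of the `s`-th point. -/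
noncomputable def mx {m : ℕ} (a : Fin m → ℂ) (s : ℕ) : Ideal (Rm m) :=
  RingHom.ker (eval (pt a s))

theorem mem_mx {m : ℕ} {a : Fin m → ℂ} {s : ℕ} {f : Rm m} : f ∈ mx a s ↔ eval (pt a s) f = 0 :=
  Iff.rfl

instance mx_isMaximal {m : ℕ} (a : Fin m → ℂ) (s : ℕ) : (mx a s).IsMaximal :=
  RingHom.ker_isMaximal_of_surjective _ (fun c => ⟨C c, by simp⟩)

/-- Index at least `t` at the `s`-th point. -/
noncomputable def ix {m : ℕ} (w : Fin (m + 1) → ℕ) (a : Fin m → ℂ) (s : ℕ) (t : ℝ) :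
    Ideal (Rm m) := idx (Dv m) Set.univ w (mx a s) t

/-- Index at least `t` at each of the points `0, …, S - 1`. -/
noncomputable def aI {m : ℕ} (w : Fin (m + 1) → ℕ) (a : Fin m → ℂ) (S : ℕ) (t : ℝ) :
    Ideal (Rm m) := ⨅ s ∈ Finset.range S, ix w a s t

theorem mem_aI {m : ℕ} {w : Fin (m + 1) → ℕ} {a : Fin m → ℂ} {S : ℕ} {t : ℝ} {f : Rm m} :
    f ∈ aI w a S t ↔ ∀ s < S, f ∈ ix w a s t := by
  simp [aI]

/-- Polynomials of degree `≤ k K` in `Y` and weighted degree `≤ k D` in the `X_j`. -/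
noncomputable def Vs {m : ℕ} (w : Fin (m + 1) → ℕ) (K D k : ℕ) : Submodule ℂ (Rm m) :=
  restrictSupport ℂ {μ | μ 0 ≤ k * K ∧ ∑ j : Fin m, w j.succ * μ j.succ ≤ k * D}

theorem mem_Vs {m : ℕ} {w : Fin (m + 1) → ℕ} {K D k : ℕ} {f : Rm m} :
    f ∈ Vs w K D k ↔
      ∀ μ ∈ f.support, μ 0 ≤ k * K ∧ ∑ j : Fin m, w j.succ * μ j.succ ≤ k * D := by
  simp only [Vs, mem_restrictSupport_iff]
  rfl

/-- Truncated logarithm `∑_{i < n} (-1)^i (Y - 1)^(i+1) / (i+1)`. -/
noncomputable def lam (m n : ℕ) : Rm m :=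
  ∑ i ∈ Finset.range n, C ((-1) ^ i / ((i : ℂ) + 1)) * (X 0 - 1) ^ (i + 1)

/-- Derivatives of `P` along words of weight at most `σ`. -/
def Gs {m : ℕ} (w : Fin (m + 1) → ℕ) (P : Rm m) (σ : ℝ) : Set (Rm m) :=
  {g | ∃ u : List (Fin (m + 1)), (lwt w u : ℝ) ≤ σ ∧ g = dw (Dv m) u P}

/-- Jets of index `< k θ` at the `S` points are separated by polynomials of degree `k + c`. -/
def Sep {m : ℕ} (w : Fin (m + 1) → ℕ) (a : Fin m → ℂ) (S K D : ℕ) (θ : ℝ) : Prop :=
  ∃ c : ℕ, ∀ (k : ℕ) (f : Rm m), ∃ v ∈ Vs w K D (k + c), f - v ∈ aI w a S (k * θ)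

/-- Sections of degree `k₀` and index `k₀ θ` whose common zeros are isolated at the points. -/
def Amp {m : ℕ} (w : Fin (m + 1) → ℕ) (a : Fin m → ℂ) (S K D : ℕ) (θ : ℝ) : Prop :=
  ∃ k₀ : ℕ, 1 ≤ k₀ ∧ ∃ G : Set (Rm m), (∀ g ∈ G, g ∈ Vs w K D k₀ ∧ g ∈ aI w a S (k₀ * θ)) ∧
    ∀ s < S, ∀ p : Ideal (Rm m), p.IsPrime → Ideal.span G ≤ p → p ≤ mx a s → mx a s ≤ p

/-- A family `f a`, `a ∈ A`, of elements of `q` dual modulo `q` to the derivations `Dv m a`. -/
def Diag {m : ℕ} (q : Ideal (Rm m)) (A : Finset (Fin (m + 1))) (f : Fin (m + 1) → Rm m) : Prop :=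
  (∀ a ∈ A, f a ∈ q) ∧ (∀ i ∈ A, ∀ a ∈ A, i ≠ a → Dv m i (f a) ∈ q) ∧ ∀ a ∈ A, Dv m a (f a) ∉ q

/-- The auxiliary polynomial `∑ c(l,k) Y^k ∏ (q_j X_j)^(l_j)`. -/
noncomputable def auxP {m : ℕ} (q : Fin m → ℕ) (T : Finset ((Fin m → ℕ) × ℕ))
    (c : (Fin m → ℕ) × ℕ → ℤ) : Rm m :=
  ∑ x ∈ T, C (c x : ℂ) * X 0 ^ x.2 * ∏ j : Fin m, (C (q j : ℂ) * X j.succ) ^ x.1 j

/-- The coefficient of `W^b` in `auxP (ζ + W₁, …, ζ + W_m; exp ζ)`. -/
noncomputable def Gf {m : ℕ} (q : Fin m → ℕ) (T : Finset ((Fin m → ℕ) × ℕ))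
    (c : (Fin m → ℕ) × ℕ → ℤ) (b : Fin m → ℕ) (ζ : ℂ) : ℂ :=
  ∑ x ∈ T, (c x : ℂ) * Complex.exp (x.2 * ζ) *
    ∏ j : Fin m, ((q j : ℂ) ^ x.1 j * ((x.1 j).choose (b j) : ℂ) * ζ ^ (x.1 j - b j))

/-- The approximations `2 i p_j / q_j` to `2 π i`. -/
noncomputable def apx {m : ℕ} (p : Fin m → ℤ) (q : Fin m → ℕ) (j : Fin m) : ℂ :=
  2 * Complex.I * (p j : ℂ) / (q j : ℂ)

/-- The common denominator of the local coefficients. -/
def den {m : ℕ} (w : Fin (m + 1) → ℕ) (D : ℕ) : ℕ :=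
  ∏ j : Fin m, Nat.lcmUpto (w j.succ / w 0) ^ (D / w j.succ)

end Crest.Agent.R11
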