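import Crest.Agent.R11.Defs

namespace Crest.Agent.R11

open MvPolynomial

variable {m : ℕ}

/-- The lexicographically first transcendence basis among the variables. -/
theorem exists_basis (q : Ideal (Rm m)) (hq : q.IsPrime) :
    ∃ B : Finset (Fin (m + 1)), (∀ h ∈ q, h ∈ supported ℂ (B : Set (Fin (m + 1))) → h = 0) ∧
      ∀ j, j ∉ B → ∃ h ∈ q, h ≠ 0 ∧
        h ∈ supported ℂ (insert j {b : Fin (m + 1) | b ∈ B ∧ b < j}) := by
  sorry

theorem univ_root (q : Ideal (Rm m)) (hq : q.IsPrime) (i : Fin (m + 1)) (h : Rm m) (hh : h ∈ q)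
    (h0 : h ≠ 0) (hs : h ∈ supported ℂ ({i} : Set (Fin (m + 1)))) :
    ∃ c : ℂ, (X i - C c : Rm m) ∈ q := by
  sorry

theorem supported_of_pderiv {T : Set (Fin (m + 1))} {h : Rm m}
    (hs : ∀ b, b ∉ T → pderiv b h = 0) : h ∈ supported ℂ T := by
  sorry

theorem pderiv_of_supported {T : Set (Fin (m + 1))} {h : Rm m} (hs : h ∈ supported ℂ T)
    {b : Fin (m + 1)} (hb : b ∉ T) : pderiv b h = 0 := by
  sorry

/-- A relation of minimal total degree. -/
theorem famX (q : Ideal (Rm m)) (T : Set (Fin (m + 1)))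
    (hT : ∀ h ∈ q, h ∈ supported ℂ T → h = 0) (j : Fin (m + 1))
    (hj : ∃ h ∈ q, h ≠ 0 ∧ h ∈ supported ℂ (insert j T)) :
    ∃ h ∈ q, h ≠ 0 ∧ h ∈ supported ℂ (insert j T) ∧ pderiv j h ∉ q ∧
      ∀ b, pderiv b h ∈ q → pderiv b h = 0 := by
  sorry

/-- A relation minimal for (degree in `X j`, degree in `Y` of the leading coefficient):
transcendence of the exponential. -/
theorem famY (q : Ideal (Rm m)) (T : Set (Fin (m + 1)))
    (hT : ∀ h ∈ q, h ∈ supported ℂ T → h = 0) (j : Fin (m + 1)) (hj0 : j ≠ 0)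
    (hj : ∃ h ∈ q, h ≠ 0 ∧ h ∈ supported ℂ (insert j T)) :
    ∃ h ∈ q, h ∈ supported ℂ (insert j T) ∧ pderiv j h + X 0 * pderiv 0 h ∉ q := by
  sorry

theorem Diag.insert {q : Ideal (Rm m)} (hq : q.IsPrime) {A : Finset (Fin (m + 1))}
    {f : Fin (m + 1) → Rm m} (hf : Diag q A f) {b : Fin (m + 1)} (hb : b ∉ A) {g : Rm m}
    (hg : g ∈ q) (hbg : Dv m b g ∉ q) (hAg : ∀ i ∈ A, Dv m i g ∈ q) :
    ∃ f' : Fin (m + 1) → Rm m, Diag q (Insert.insert b A) f' := by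
  sorry

end Crest.Agent.R11
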