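import Crest.Agent.R11.Fam1

namespace Crest.Agent.R11

open MvPolynomial

/-- Structure of a prime that either is not inside `Y = 1` or passes through two of the points. -/
theorem exists_fam {m : ℕ} (a : Fin m → ℂ) (ha : ∀ j, a j ≠ 0) (q : Ideal (Rm m))
    (hq : q.IsPrime) (hq0 : q ≠ ⊥) (s : ℕ) (hs : q ≤ mx a s)
    (h : (X 0 - 1 : Rm m) ∉ q ∨ ∃ s', s' ≠ s ∧ q ≤ mx a s') :
    ∃ (B A : Finset (Fin (m + 1))) (f : Fin (m + 1) → Rm m),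
      (∀ h ∈ q, h ∈ supported ℂ (B : Set (Fin (m + 1))) → h = 0) ∧
      (∀ j, j ∉ B → ∃ h ∈ q, h ≠ 0 ∧ h ∈ supported ℂ (insert j (B : Set (Fin (m + 1))))) ∧
      Diag q A f ∧
      ((A = {0} ∧ Bᶜ = {0}) ∨
        ∃ j b : Fin (m + 1), j ∉ B ∧ b ∈ B ∧ b < j ∧ A = insert b (Bᶜ.erase j)) := by
  sorry

end Crest.Agent.R11
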