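import Crest.Agent.R11.Main

namespace Crest.Agent.R11

/-- Choice of `δ, m, S, w₀`. -/
theorem params (ν : ℝ) (hν : 2 < ν) (hν3 : ν ≤ 3) :
    ∃ (δ : ℝ) (m S w₀ : ℕ), 0 < δ ∧ δ ≤ 1 / 20 ∧ 1 ≤ S ∧ 1 ≤ m ∧ 6 * (m : ℝ) ≤ δ * w₀ ∧
      256 * (S : ℝ) ≤ δ ^ 2 * (ν / 2) ^ m ∧ (w₀ : ℝ) * ((m : ℝ) + 1) ^ 2 < 4 * S ∧
      δ * ((m : ℝ) + 1) * w₀ / 8 < (S : ℝ) ^ 2 * ((1 - 12 * δ) / (ν - 1)) ^ (m + 1) := by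
  sorry

theorem pi_measure (ν : ℝ) (hν : 2 < ν) :
    ∃ Q : ℕ, ∀ (p : ℤ) (q : ℕ), Q ≤ q → 1 / (q : ℝ) ^ ν ≤ |Real.pi - (p : ℝ) / (q : ℝ)| := by
  sorry

end Crest.Agent.R11
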