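import Crest.Agent.R11.Words
import Crest.Agent.R11.Local

namespace Crest.Agent.R11

open MvPolynomial

namespace LiouA

/-- truncated logarithm in the shifted variable -/
noncomputable def lamZ (m n : ℕ) : Rm m :=
  ∑ i ∈ Finset.range n, C ((-1) ^ i / ((i : ℂ) + 1)) * X 0 ^ (i + 1)

/-- polynomials with Gaussian integer coefficients -/
noncomputable def OO (m : ℕ) : Subring (Rm m) :=
  (MvPolynomial.map (σ := Fin (m + 1)) GaussianInt.toComplex).range

theorem X_mem {m : ℕ} (i : Fin (m + 1)) : (X i : Rm m) ∈ OO m := ⟨X i, map_X _ _⟩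

theorem C_mem {m : ℕ} (x y : ℤ) : (C ((x : ℂ) + y * Complex.I) : Rm m) ∈ OO m :=
  ⟨C ⟨x, y⟩, by rw [map_C, GaussianInt.toComplex_def']⟩

theorem C_int_mem {m : ℕ} (x : ℤ) : (C (x : ℂ) : Rm m) ∈ OO m := by simpa using C_mem (m := m) x 0

theorem lamZ_mem (m n : ℕ) : C (Nat.lcmUpto n : ℂ) * lamZ m n ∈ OO m := by
  rw [lamZ, Finset.mul_sum]
  refine Subring.sum_mem _ fun i hi => ?_
  rw [← mul_assoc, ← map_mul]
  refine Subring.mul_mem _ ?_ (Subring.pow_mem _ (X_mem 0) _)
  have h : (i + 1) ∣ Nat.lcmUpto n :=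
    Finset.dvd_lcm (f := id) (Finset.mem_Icc.2 ⟨Nat.succ_pos i, Finset.mem_range.1 hi⟩)
  obtain ⟨k, hk⟩ := h
  have : (Nat.lcmUpto n : ℂ) * ((-1) ^ i / ((i : ℂ) + 1)) = (((-1) ^ i * k : ℤ) : ℂ) := by
    have h0 : (i : ℂ) + 1 ≠ 0 := by exact_mod_cast Nat.succ_ne_zero i
    rw [hk]
    push_cast
    field_simp
  rw [this]
  exact C_int_mem _

theorem one_le_norm {m : ℕ} {f : Rm m} (hf : f ∈ OO m) {μ : Fin (m + 1) →₀ ℕ} (h : coeff μ f ≠ 0) :
    1 ≤ ‖coeff μ f‖ := by
  obtain ⟨g, rfl⟩ := hf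
  rw [coeff_map] at h ⊢
  have h1 : coeff μ g ≠ 0 := fun h0 => h (by rw [h0, map_zero])
  have h2 : (1 : ℝ) ≤ ((coeff μ g).norm : ℝ) := by exact_mod_cast GaussianInt.norm_pos.2 h1
  rw [GaussianInt.intCast_real_norm, Complex.normSq_eq_norm_sq] at h2
  by_contra h3
  push Not at h3
  nlinarith [norm_nonneg (GaussianInt.toComplex (coeff μ g))]

end LiouA

/-- Liouville inequality for the lowest-weight local coefficient. -/
theorem liouville {m : ℕ} (w : Fin (m + 1) → ℕ) (hw : ∀ i, 1 ≤ w i) (D : ℕ)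
    (p : Fin m → ℤ) (q : Fin m → ℕ) (hq : ∀ j, 1 ≤ q j) (T : Finset ((Fin m → ℕ) × ℕ))
    (hT : ∀ x ∈ T, ∀ j, w j.succ * x.1 j ≤ D) (c : (Fin m → ℕ) × ℕ → ℤ) (s : ℕ) (t : ℝ)
    (h : ∀ (v : List (Fin m)) (n : ℕ),
      (lwt w (v.map Fin.succ ++ List.replicate n 0) : ℝ) < t →
      ‖eval (pt (apx p q) s) (dw (Dv m) (v.map Fin.succ ++ List.replicate n 0) (auxP q T c))‖ *
          den w D <
        (n.factorial : ℝ) * ∏ j, (((v.count j).factorial : ℝ) * (q j : ℝ) ^ v.count j)) :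
    auxP q T c ∈ ix w (apx p q) s t := by
  classical
  set a := apx p q with ha
  have hq0 : ∀ j, (q j : ℂ) ≠ 0 := fun j => by exact_mod_cast (show q j ≠ 0 by have := hq j; omega)
  let nn : Fin m → ℕ := fun j => w j.succ / w 0
  have hnn : ∀ j, w j.succ < (nn j + 1) * w 0 := fun j => by
    have := Nat.lt_mul_div_succ (w j.succ) (hw 0)
    rwa [mul_comm] at this
  let f : Fin (m + 1) → Rm m :=
    Fin.cons (X 0 - 1) fun j => C (q j : ℂ) * (X j.succ - C ((s : ℂ) * a j) - lam m (nn j))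
  let g : Fin (m + 1) → Rm m :=
    Fin.cons (1 + X 0) fun j => C ((q j : ℂ)⁻¹) * X j.succ + C ((s : ℂ) * a j) + LiouA.lamZ m (nn j)
  have f0 : f 0 = X 0 - 1 := rfl
  have fs : ∀ j : Fin m, f j.succ = C (q j : ℂ) * (X j.succ - C ((s : ℂ) * a j) - lam m (nn j)) := fun _ => rfl
  have g0 : g 0 = 1 + X 0 := rfl
  have gs : ∀ j : Fin m, g j.succ = C ((q j : ℂ)⁻¹) * X j.succ + C ((s : ℂ) * a j) + LiouA.lamZ m (nn j) :=
    fun _ => rfl
  have hf : ∀ i ∈ (Set.univ : Set (Fin (m + 1))), f i ∈ idx (Dv m) Set.univ w (mx a s) (w i) := by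
    intro i _
    refine Fin.cases ?_ (fun j => ?_) i
    · exact z_mem_ix w a s
    · exact Ideal.mul_mem_left _ _ (eta_mem_ix w a s j _ (hnn j))
  have hd : ∀ i ∈ (Set.univ : Set (Fin (m + 1))), ∀ b ∈ (Set.univ : Set (Fin (m + 1))), i ≠ b →
      Dv m i (f b) ∈ idx (Dv m) Set.univ w (mx a s) ((w b : ℝ) - w i + 1) := by
    intro i _ b _
    refine Fin.cases ?_ (fun j => ?_) b
    · intro hi
      rw [f0, Dv_of_ne hi, map_sub, pderiv_X_of_ne (Ne.symm hi), Derivation.map_one_eq_zero, sub_zero]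
      exact Ideal.zero_mem _
    · refine Fin.cases ?_ (fun k => ?_) i
      · intro _
        rw [fs, Derivation.leibniz, Dv_C, smul_zero, add_zero, map_sub, map_sub, Dv_C, Dv_zero_lam,
          Dv_zero_X_of_ne (Fin.succ_ne_zero j), smul_eq_mul]
        refine Ideal.mul_mem_left _ _ ?_
        rw [sub_zero, sub_sub_cancel]
        have h1 := idx_pow (neg_mem (z_mem_ix w a s)) (nn j)
        refine idx_anti ?_ h1
        have h2 : ((w j.succ + 1 : ℕ) : ℝ) ≤ ((nn j + 1) * w 0 : ℕ) := by exact_mod_cast hnn j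
        push_cast at h2
        linarith
      · intro hk
        rw [fs, Derivation.leibniz, Dv_C, smul_zero, add_zero, map_sub, map_sub, Dv_C, Dv_succ_lam, Dv_succ,
          pderiv_X_of_ne (Ne.symm hk)]
        simp
  have hD0 : eval (pt a s) (Dv m 0 (f 0)) = 1 := by
    rw [f0, map_sub, Dv_zero_X_zero, Derivation.map_one_eq_zero]
    simp
  have hDs : ∀ j : Fin m, eval (pt a s) (Dv m j.succ (f j.succ)) = q j := by
    intro j
    rw [fs, Derivation.leibniz, Dv_C, smul_zero, add_zero, map_sub, map_sub, Dv_C, Dv_succ_lam, Dv_succ,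
      pderiv_X_self]
    simp
  have hfg : ∀ i, aeval f (g i) = X i := by
    intro i
    refine Fin.cases ?_ (fun j => ?_) i
    · simp [g0, f0]
    · have h1 : aeval f (LiouA.lamZ m (nn j)) = lam m (nn j) := by
        simp [LiouA.lamZ, lam, f0]
      rw [gs, map_add, map_add, map_mul, h1, aeval_X, fs, aeval_C, aeval_C, algebraMap_eq, ← mul_assoc, ← map_mul,
        inv_mul_cancel₀ (hq0 j), map_one]
      ring
  set Q : Rm m := aeval g (auxP q T c) with hQ
  have hPQ : auxP q T c = ∑ μ ∈ Q.support, C (coeff μ Q) * mon f μ := by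
    have h1 : aeval f Q = auxP q T c := by
      rw [hQ, ← AlgHom.comp_apply, comp_aeval]
      simp only [hfg]
      exact aeval_X_left_apply _
    rw [← h1, aeval_def, eval₂_eq']
    rfl
  have hint : C (den w D : ℂ) * Q ∈ LiouA.OO m := by
    rw [hQ, auxP, map_sum, Finset.mul_sum]
    refine Subring.sum_mem _ fun x hx => ?_
    simp only [map_mul, map_pow, map_prod, aeval_X, aeval_C, algebraMap_eq, den, Nat.cast_prod, Nat.cast_pow]
    rw [mul_left_comm, ← Finset.prod_mul_distrib]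
    refine Subring.mul_mem _ (Subring.mul_mem _ (LiouA.C_int_mem _) (Subring.pow_mem _ ?_ _))
      (Subring.prod_mem _ fun j _ => ?_)
    · rw [g0]
      exact Subring.add_mem _ (Subring.one_mem _) (LiouA.X_mem 0)
    · have hl : x.1 j ≤ D / w j.succ := (Nat.le_div_iff_mul_le (hw _)).2 (by rw [mul_comm]; exact hT x hx j)
      obtain ⟨k, hk⟩ := Nat.exists_eq_add_of_le' hl
      have hΛ : (C (Nat.lcmUpto (nn j) : ℂ) : Rm m) ∈ LiouA.OO m := by
        simpa using LiouA.C_int_mem (m := m) (Nat.lcmUpto (nn j) : ℤ)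
      have hqq : (C (q j : ℂ) : Rm m) ∈ LiouA.OO m := by simpa using LiouA.C_int_mem (m := m) (q j : ℤ)
      rw [hk, pow_add, mul_assoc, ← mul_pow]
      refine Subring.mul_mem _ (Subring.pow_mem _ hΛ _) (Subring.pow_mem _ ?_ _)
      have e : C (Nat.lcmUpto (w j.succ / w 0) : ℂ) * (C (q j : ℂ) * g j.succ) =
          C (Nat.lcmUpto (nn j) : ℂ) * (X j.succ + C (((0 : ℤ) : ℂ) + ((2 * s * p j : ℤ) : ℂ) * Complex.I)) +
            C (q j : ℂ) * (C (Nat.lcmUpto (nn j) : ℂ) * LiouA.lamZ m (nn j)) := by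
        have e1 : (C (q j : ℂ) : Rm m) * C ((q j : ℂ)⁻¹) = 1 := by
          rw [← map_mul, mul_inv_cancel₀ (hq0 j), map_one]
        have e2 : (C (q j : ℂ) : Rm m) * C ((s : ℂ) * a j) =
            C (((0 : ℤ) : ℂ) + ((2 * s * p j : ℤ) : ℂ) * Complex.I) := by
          rw [← map_mul, ha, apx]
          congr 1
          have := hq0 j
          push_cast
          field_simp
          ring
        rw [gs, ← e2]
        simp only [nn]
        linear_combination (C (Nat.lcmUpto (w j.succ / w 0) : ℂ) * X j.succ : Rm m) * e1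
      rw [e]
      exact Subring.add_mem _ (Subring.mul_mem _ hΛ (Subring.add_mem _ (LiouA.X_mem _) (LiouA.C_mem _ _)))
        (Subring.mul_mem _ hqq (LiouA.lamZ_mem _ _))
  have key : ∀ μ ∈ Q.support, t ≤ ((∑ i, w i * μ i : ℕ) : ℝ) := by
    by_contra hc
    push Not at hc
    obtain ⟨μ₁, hμ₁, hlt⟩ := hc
    obtain ⟨μ₀, hμ₀, hmin⟩ := Finset.exists_min_image Q.support (fun μ => ∑ i, w i * μ i) ⟨μ₁, hμ₁⟩
    obtain ⟨v, hv⟩ := exists_word (fun j : Fin m => μ₀ j.succ)
    set u : List (Fin (m + 1)) := v.map Fin.succ ++ List.replicate (μ₀ 0) 0 with hu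
    have hcount : ∀ i, u.count i = μ₀ i := by
      intro i
      rw [hu, List.count_append, List.count_replicate]
      refine Fin.cases ?_ (fun j => ?_) i
      · rw [List.count_eq_zero_of_not_mem (by simp)]
        simp
      · rw [List.count_map_of_injective _ _ (Fin.succ_injective _), hv]
        simp [(Fin.succ_ne_zero j).symm]
    have hlw : ∑ i, w i * μ₀ i = lwt w u := by
      rw [lwt_eq_sum_count]
      simp only [hcount]
    have hlt' : (lwt w u : ℝ) < t := by
      rw [← hlw]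
      exact lt_of_le_of_lt (by exact_mod_cast hmin μ₁ hμ₁) hlt
    have h1 := h v (μ₀ 0) hlt'
    have h2 : eval (pt a s) (dw (Dv m) u (auxP q T c)) = coeff μ₀ Q *
        (((μ₀ 0).factorial : ℂ) * ∏ j, (((v.count j).factorial : ℂ) * (q j : ℂ) ^ v.count j)) := by
      rw [hPQ, dw_sum, map_sum, Finset.sum_eq_single μ₀]
      · have h3 := dw_mon hw hf hd u (fun _ _ => Set.mem_univ _) μ₀ (fun _ h => absurd (Set.mem_univ _) h) hlw
          (C (coeff μ₀ Q))
        rw [if_pos hcount, mem_mx, map_sub, sub_eq_zero] at h3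
        rw [h3, map_mul, eval_C, map_prod, Fin.prod_univ_succ]
        simp only [map_mul, map_pow, map_natCast, hD0, hDs, hv, one_pow, mul_one]
      · intro μ hμ hne
        rcases (hmin μ hμ).eq_or_lt with h4 | h4
        · have h3 := dw_mon hw hf hd u (fun _ _ => Set.mem_univ _) μ (fun _ h => absurd (Set.mem_univ _) h)
            (h4 ▸ hlw) (C (coeff μ Q))
          rw [if_neg, sub_zero] at h3
          · exact h3
          · intro h5
            exact hne (Finsupp.ext fun i => by rw [← h5, hcount])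
        · refine Ideal.mul_mem_left _ (C (coeff μ Q))
            (mon_mem_idx hf μ (fun _ h => absurd (Set.mem_univ _) h)) u (fun _ _ => Set.mem_univ _) ?_
          rw [← hlw]
          exact_mod_cast h4
      · intro h3
        exact absurd hμ₀ h3
    have hden : (den w D : ℂ) ≠ 0 := by
      have : den w D ≠ 0 := Finset.prod_ne_zero_iff.2 fun j _ => pow_ne_zero _ (Nat.lcmUpto_ne_zero _)
      exact_mod_cast this
    have h5 := LiouA.one_le_norm hint (μ := μ₀) (by
      rw [coeff_C_mul]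
      exact mul_ne_zero hden (mem_support_iff.1 hμ₀))
    rw [coeff_C_mul, norm_mul, Complex.norm_natCast] at h5
    rw [h2, norm_mul, norm_mul, norm_prod] at h1
    simp only [norm_mul, norm_pow, Complex.norm_natCast] at h1
    have h6 : (0 : ℝ) ≤ ((μ₀ 0).factorial : ℝ) * ∏ j, (((v.count j).factorial : ℝ) * (q j : ℝ) ^ v.count j) := by
      positivity
    nlinarith
  rw [hPQ]
  refine Ideal.sum_mem _ fun μ hμ => Ideal.mul_mem_left _ _ ?_
  exact idx_anti (key μ hμ) (mon_mem_idx hf μ fun _ h => absurd (Set.mem_univ _) h)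

end Crest.Agent.R11
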