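import Crest.Agent.R11.Defs

namespace Crest.Agent.R11

open MvPolynomial

variable {m : ℕ}

theorem Dv_zero_lam (n : ℕ) : Dv m 0 (lam m n) = 1 - (-(X 0 - 1)) ^ n := by
  sorry

theorem Dv_succ_lam (n : ℕ) (j : Fin m) : Dv m j.succ (lam m n) = 0 := by
  sorry

theorem lam_mem_span (n : ℕ) : lam m n ∈ Ideal.span {(X 0 - 1 : Rm m)} := by
  sorry

theorem z_mem_ix (w : Fin (m + 1) → ℕ) (a : Fin m → ℂ) (s : ℕ) :
    (X 0 - 1 : Rm m) ∈ ix w a s (w 0) := by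
  sorry

theorem eta_mem_ix (w : Fin (m + 1) → ℕ) (a : Fin m → ℂ) (s : ℕ) (j : Fin m) (n : ℕ)
    (hn : w j.succ < (n + 1) * w 0) :
    (X j.succ - C ((s : ℂ) * a j) - lam m n : Rm m) ∈ ix w a s (w j.succ) := by
  sorry

/-- `(X_j - s a_j)^n` has index `t` modulo `(Y - 1)^e`. -/
theorem xi_pow_mem (w : Fin (m + 1) → ℕ) (hw : ∀ i, 1 ≤ w i) (a : Fin m → ℂ) (s : ℕ) (j : Fin m)
    (n e : ℕ) (t : ℝ) (h : t + e * w j.succ ≤ n * w j.succ) :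
    (X j.succ - C ((s : ℂ) * a j) : Rm m) ^ n ∈
      Ideal.span {(X 0 - 1 : Rm m) ^ e} ⊔ ix w a s t := by
  sorry

theorem mx_le_of (a : Fin m → ℂ) (s : ℕ) (p : Ideal (Rm m)) (h0 : (X 0 - 1 : Rm m) ∈ p)
    (h : ∀ j : Fin m, (X j.succ - C ((s : ℂ) * a j) : Rm m) ∈ p) : mx a s ≤ p := by
  sorry

theorem mx_ne (hm : 1 ≤ m) {a : Fin m → ℂ} (ha : ∀ j, a j ≠ 0) {s s' : ℕ} (h : s ≠ s') :
    mx a s ≠ mx a s' := by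
  sorry

theorem mx_pow_le_ix (w : Fin (m + 1) → ℕ) (hw : ∀ i, 1 ≤ w i) (a : Fin m → ℂ) (s : ℕ) (t : ℝ) :
    mx a s ^ ⌈t⌉₊ ≤ ix w a s t := by
  sorry

/-- Elements outside the maximal ideal are invertible modulo the index ideal. -/
theorem mem_sup_ix_of_mul (w : Fin (m + 1) → ℕ) (hw : ∀ i, 1 ≤ w i) (a : Fin m → ℂ) (s : ℕ)
    (t : ℝ) (I : Ideal (Rm m)) {u f : Rm m} (hu : u ∉ mx a s) (h : u * f ∈ I ⊔ ix w a s t) :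
    f ∈ I ⊔ ix w a s t := by
  sorry

/-- Local-to-global membership. -/
theorem mem_sup_aI (hm : 1 ≤ m) (w : Fin (m + 1) → ℕ) (hw : ∀ i, 1 ≤ w i) {a : Fin m → ℂ}
    (ha : ∀ j, a j ≠ 0) (S : ℕ) (t : ℝ) (I : Ideal (Rm m)) {f : Rm m}
    (h : ∀ s < S, f ∈ I ⊔ ix w a s t) : f ∈ I ⊔ aI w a S t := by
  sorry

theorem aI_mul {w : Fin (m + 1) → ℕ} {a : Fin m → ℂ} {S : ℕ} {t t' : ℝ} {f g : Rm m}
    (hf : f ∈ aI w a S t) (hg : g ∈ aI w a S t') : f * g ∈ aI w a S (t + t') := by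
  sorry

theorem aI_anti {w : Fin (m + 1) → ℕ} {a : Fin m → ℂ} {S : ℕ} {t t' : ℝ} (h : t ≤ t') :
    aI w a S t' ≤ aI w a S t := by
  sorry

theorem aI_pow {w : Fin (m + 1) → ℕ} {a : Fin m → ℂ} {S : ℕ} {t : ℝ} {f : Rm m}
    (hf : f ∈ aI w a S t) (n : ℕ) : f ^ n ∈ aI w a S (n * t) := by
  sorry

theorem pow_le_aI {w : Fin (m + 1) → ℕ} {a : Fin m → ℂ} {S : ℕ} {t : ℝ} {I : Ideal (Rm m)}
    (h : I ≤ aI w a S t) (n : ℕ) : I ^ n ≤ aI w a S (n * t) := by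
  sorry

theorem Gs_mem_aI {w : Fin (m + 1) → ℕ} {a : Fin m → ℂ} {S : ℕ} {t σ : ℝ} {P g : Rm m}
    (hP : P ∈ aI w a S t) (hg : g ∈ Gs w P σ) : g ∈ aI w a S (t - σ) := by
  sorry

end Crest.Agent.R11
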