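import Crest.Agent.R11.Core
import Crest.Agent.R11.Local

namespace Crest.Agent.R11

open MvPolynomial

theorem sep_of_amp {m : ℕ} (w : Fin (m + 1) → ℕ) (hw : ∀ i, 1 ≤ w i)
    (a : Fin m → ℂ) (S K D : ℕ) (hK : 1 ≤ K) (hD : 1 ≤ D) (θ : ℝ)
    (hθ : 0 ≤ θ) (h : Amp w a S K D θ) : Sep w a S K D θ := by
  obtain ⟨k₀, hk₀, G, hG, hiso⟩ := h
  let n : Ideal (Rm m) := ∏ s ∈ Finset.range S, mx a s
  have hn : ∀ s < S, n ≤ mx a s := fun s hs =>
    Ideal.prod_le_inf.trans (Finset.inf_le (Finset.mem_range.2 hs))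
  have h1 : ∀ s, s < S → ∃ (N : ℕ) (y : Rm m), y ∉ mx a s ∧
      ∀ z ∈ mx a s ^ N, y * z ∈ Ideal.span G := fun s hs =>
    loc_nil _ _ _ inferInstance fun p hp hpM => hiso s hs p hp.1.1 hp.1.2 hpM
  choose! N y hy hyz using h1
  let N₀ := (Finset.range S).sup N
  let J : Ideal (Rm m) := (Ideal.span G).colon ((n ^ N₀ : Ideal (Rm m)) : Set (Rm m))
  have hJ : J ⊔ n = ⊤ := by
    by_contra hne
    obtain ⟨M, hM, hle⟩ := Ideal.exists_le_maximal _ hne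
    obtain ⟨s, hs, hsM⟩ := hM.isPrime.prod_le.1 (le_sup_right.trans hle)
    rw [Finset.mem_range] at hs
    have hsM' : mx a s = M := (mx_isMaximal a s).eq_of_le hM.ne_top hsM
    refine hy s hs ?_
    rw [hsM']
    refine (le_sup_left.trans hle) (Submodule.mem_colon.2 fun z hz => hyz s hs z ?_)
    exact Ideal.pow_le_pow_right (Finset.le_sup (f := N) (Finset.mem_range.2 hs))
      (Ideal.pow_right_mono (hn s hs) N₀ hz)
  obtain ⟨w₁, hw₁, y₁, hy₁, e₁⟩ := Submodule.mem_sup.1 ((Ideal.eq_top_iff_one _).1 hJ)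
  obtain ⟨c, hc⟩ := sat_span (A := ℂ) (Set.range (X : Fin (m + 1) → Rm m)) (Set.finite_range _)
    adjoin_range_X n (by
      rintro _ ⟨i, rfl⟩
      refine ⟨∏ s ∈ Finset.range S, (Polynomial.X - Polynomial.C (pt a s i)),
        (Polynomial.monic_prod_of_monic _ _ fun s _ => Polynomial.monic_X_sub_C _).ne_zero, ?_⟩
      rw [map_prod]
      exact Ideal.prod_mem_prod fun s _ => by simp [mem_mx])
    G (fun j => Vs w K D (k₀ * j)) (fun i j hij => Vs_mono w K D (Nat.mul_le_mul_left _ hij))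
    (fun g hg k v hv => by
      have := Vs_mul (hG g hg).1 hv
      rwa [show k₀ + k₀ * k = k₀ * (k + 1) by ring] at this)
    (fun f => by
      obtain ⟨k, hk⟩ := exists_mem_Vs w hK hD f
      exact ⟨k, Vs_mono w K D (Nat.le_mul_of_pos_left _ hk₀) hk⟩)
    N₀ 1 one_ne_zero w₁ (Submodule.mem_colon.1 hw₁) (by
      rw [map_one, ← e₁, add_sub_cancel_left]; exact hy₁)
  refine ⟨k₀ * c + k₀, fun k f => ?_⟩
  obtain ⟨u, hu, v, hv, z, hz, e⟩ := hc (k / k₀ + 1) ⌈k * θ⌉₊ f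
  have hk1 : k₀ * (k / k₀) ≤ k := Nat.mul_div_le k k₀
  have hk2 : k < k₀ * (k / k₀ + 1) := Nat.lt_mul_div_succ k hk₀
  refine ⟨u⁻¹ • v, Submodule.smul_mem _ _ (Vs_mono w K D (by nlinarith) hv), ?_⟩
  have e' : f - u⁻¹ • v = u⁻¹ • z := by
    rw [sub_eq_iff_eq_add', ← smul_add, ← e, inv_smul_smul₀ hu]
  rw [e']
  refine Submodule.smul_of_tower_mem _ _ ((sup_le ?_ ?_ : _ ≤ aI w a S (k * θ)) hz)
  · refine (pow_le_aI (Ideal.span_le.2 fun g hg => (hG g hg).2) _).trans (aI_anti ?_)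
    rw [← mul_assoc]
    refine mul_le_mul_of_nonneg_right ?_ hθ
    rw [mul_comm]
    exact_mod_cast hk2.le
  · intro x hx
    exact mem_aI.2 fun s hs => mx_pow_le_ix w hw a s _ (Ideal.pow_right_mono (hn s hs) _ hx)

theorem sep_zero {m : ℕ} (w : Fin (m + 1) → ℕ) (a : Fin m → ℂ) (S K D : ℕ) :
    Sep w a S K D 0 :=
  ⟨0, fun _ _ => ⟨0, Submodule.zero_mem _, mem_aI.2 fun _ _ => mem_idx_of_nonpos (by simp) _⟩⟩

end Crest.Agent.R11
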