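import Crest.Agent.R11.Words
import Crest.Agent.R11.Count
import Crest.Agent.R11.Local

namespace Crest.Agent.R11

open MvPolynomial

theorem volume_ineq {m : ℕ} (hm : 1 ≤ m) (w : Fin (m + 1) → ℕ) (hw : ∀ i, 1 ≤ w i)
    (a : Fin m → ℂ) (ha : ∀ j, a j ≠ 0) (S K D : ℕ) (hK : 1 ≤ K) (hD : 1 ≤ D) (θ : ℝ)
    (hθ : 0 < θ) (h : Sep w a S K D θ) :
    (S : ℝ) * θ ^ (m + 1) ≤ ((m : ℝ) + 1) * w 0 * K * (D : ℝ) ^ m := by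
  sorry

end Crest.Agent.R11
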