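import Crest.Agent.R11.PT
import Crest.Agent.R11.SepAmp
import Crest.Agent.R11.Vol
import Crest.Agent.R11.Boot

namespace Crest.Agent.R11

open MvPolynomial

/-- The zero estimate (a sharp Dyson lemma twisted by the exponential). -/
theorem zero_estimate {m : ℕ} (hm : 1 ≤ m) (w : Fin (m + 1) → ℕ) (hw : ∀ i, 1 ≤ w i)
    (S K D : ℕ) (hK1 : 1 ≤ K)
    (hD : ∀ i, w i ≤ D) (e : ℝ) (he : 0 < e) (he1 : e ≤ 1) (hK : (K : ℝ) * w 0 < e * D)
    (hrat : ∀ i j, i < j → (w i : ℝ) < e ^ (m + 1) * w j)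
    (a : Fin m → ℂ) (ha : ∀ j, a j ≠ 0) (P : Rm m) (hP0 : P ≠ 0) (hP : P ∈ Vs w K D 1)
    (θ θ₀ : ℝ) (hPθ : P ∈ aI w a S θ) (h₀ : 0 < θ₀) (h₁ : θ₀ < D)
    (h₂ : θ₀ < θ - ((m : ℝ) + 1) ^ 2 * e * D) :
    (S : ℝ) * θ₀ ^ (m + 1) ≤ ((m : ℝ) + 1) * w 0 * K * (D : ℝ) ^ m := by
  have hD1 : 1 ≤ D := (hw 0).trans (hD 0)
  obtain ⟨η, hη, hb⟩ := boot hm w hw a ha S K D hK1 hD (θ - ((m : ℝ) + 1) ^ 2 * e * D) θ₀ h₂ h₁
    (Gs w P (((m : ℝ) + 1) ^ 2 * e * D))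
    (fun g hg => ⟨by obtain ⟨u, -, rfl⟩ := hg; exact dw_mem_Vs hP u, Gs_mem_aI hPθ hg⟩)
    (fun p hp hG s hs => PT w hw K D hK1 hD e he he1 hK hrat a ha P hP0 hP p hp hG s hs)
  have key : ∀ n : ℕ, Sep w a S K D (min (n * η) θ₀) := by
    intro n
    induction n with
    | zero =>
      rw [Nat.cast_zero, zero_mul, min_eq_left h₀.le]
      exact sep_zero w a S K D
    | succ n ih =>
      have h0 : 0 ≤ (n : ℝ) * η := by positivity
      refine sep_of_amp w hw a S K D hK1 hD1 _ (le_min (by positivity) h₀.le)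
        (hb _ _ (le_min h0 h₀.le) (min_le_min_right _ (by push_cast; nlinarith)) ?_ (min_le_right _ _) ih)
      push_cast
      rcases le_total ((n : ℝ) * η) θ₀ with h | h
      · rw [min_eq_left h]
        exact (min_le_left _ _).trans (by linarith)
      · rw [min_eq_right h]
        exact (min_le_right _ _).trans (by linarith)
  obtain ⟨n, hn⟩ := exists_nat_ge (θ₀ / η)
  have := key n
  rw [min_eq_right (by rwa [div_le_iff₀ hη] at hn)] at this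
  exact volume_ineq hm w hw a ha S K D hK1 hD1 θ₀ h₀ this

end Crest.Agent.R11
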