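import Crest.Agent.R11.Vanish2
import Crest.Agent.R11.Zero

namespace Crest.Agent.R11

open MvPolynomial

/-- Combination of the construction with the zero estimate (`D → ∞`). -/
theorem main_ineq {m : ℕ} (ν δ : ℝ) (hν : 2 < ν) (hν3 : ν ≤ 3) (hδ : 0 < δ) (hδ1 : δ ≤ 1 / 20)
    (S W : ℕ) (hS : 1 ≤ S) (hm : 1 ≤ m) (p : Fin m → ℤ) (q : Fin m → ℕ) (hq : ∀ j, 1 ≤ q j)
    (happ : ∀ j, |Real.pi - (p j : ℝ) / (q j : ℝ)| < 1 / (q j : ℝ) ^ ν)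
    (w : Fin (m + 1) → ℕ) (hwq : ∀ j, Real.log (q j) ≤ w j.succ)
    (hwq' : ∀ j, (w j.succ : ℝ) ≤ Real.log (q j) + 1) (hW : ∀ j : Fin m, W ≤ w j.succ)
    (hW1 : 100 * (m : ℝ) * S ≤ δ * W) (hw0 : 6 * (m : ℝ) ≤ δ * w 0)
    (hS2 : 256 * (S : ℝ) ≤ δ ^ 2 * (ν / 2) ^ m)
    (hS3 : (w 0 : ℝ) * ((m : ℝ) + 1) ^ 2 < 4 * S)
    (hrat : ∀ i j, i < j → (w i : ℝ) < (δ / (2 * ((m : ℝ) + 1) ^ 2)) ^ (m + 1) * w j) :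
    (S : ℝ) ^ 2 * ((1 - 12 * δ) / (ν - 1)) ^ (m + 1) ≤ δ * ((m : ℝ) + 1) * w 0 / 8 := by
  sorry

end Crest.Agent.R11
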