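import Crest.Agent.R11.Words
import Crest.Agent.R11.Core
import Crest.Agent.R11.Count

namespace Crest.Agent.R11

open MvPolynomial

/-- Multiplicity estimate along a minimal prime (product-theorem inequality). -/
theorem mult {m : ℕ} (w : Fin (m + 1) → ℕ) (hw : ∀ i, 1 ≤ w i) (d : Fin (m + 1) → ℕ)
    (hd : ∀ i, 1 ≤ d i) (G : Set (Rm m)) (hG : ∀ g ∈ G, ∀ μ ∈ g.support, ∀ i, μ i ≤ d i)
    (q : Ideal (Rm m)) (hq : q ∈ (Ideal.span G).minimalPrimes) (e : ℝ) (he : 0 < e)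
    (hGe : ∀ g ∈ G, g ∈ idx (Dv m) Set.univ w q e)
    (B : Finset (Fin (m + 1)))
    (hB : ∀ h ∈ q, h ∈ supported ℂ (B : Set (Fin (m + 1))) → h = 0)
    (halg : ∀ j, j ∉ B → ∃ h ∈ q, h ≠ 0 ∧ h ∈ supported ℂ (insert j (B : Set (Fin (m + 1)))))
    (A : Finset (Fin (m + 1))) (hA : A.card = Bᶜ.card) (f : Fin (m + 1) → Rm m)
    (hf : Diag q A f) :
    ∏ a ∈ A, (e / (((m : ℝ) + 1) * w a)) ≤ ∏ j ∈ Bᶜ, (d j : ℝ) := by
  sorry

end Crest.Agent.R11
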