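import Crest.Agent.R11.Mult
import Crest.Agent.R11.Fam2
import Crest.Agent.R11.Local

namespace Crest.Agent.R11

open MvPolynomial

theorem PT_chain {R : Type*} [CommRing R] [IsDomain R] (I : ℕ → Ideal R) (hI : Monotone I)
    (h0 : I 0 ≠ ⊥) (n : ℕ) (p : Ideal R) (hp : p.IsPrime) (hle : I n ≤ p) :
    (∃ i < n, ∃ q ∈ (I i).minimalPrimes, q ≤ p ∧ I (i + 1) ≤ q) ∨ ((n + 1 : ℕ) : ℕ∞) ≤ p.height := by
  induction n generalizing p with
  | zero =>
    right
    have : p.height ≠ 0 := fun h =>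
      h0 (le_bot_iff.1 (Ideal.height_eq_zero_iff_eq_bot.1 h ▸ hle))
    simpa using Order.one_le_iff_ne_zero.2 this
  | succ n ih =>
    obtain ⟨q, hq, hqp⟩ := Ideal.exists_minimalPrimes_le ((hI n.le_succ).trans hle)
    by_cases hq1 : I (n + 1) ≤ q
    · exact Or.inl ⟨n, n.lt_succ_self, q, hq, hqp, hq1⟩
    have hqq : q.IsPrime := hq.1.1
    rcases ih q hqq hq.1.2 with ⟨i, hi, q', hq', hq'q, hq'1⟩ | hh
    · exact Or.inl ⟨i, by omega, q', hq', hq'q.trans hqp, hq'1⟩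
    · right
      have hlt : q < p := lt_of_le_of_ne hqp fun h => hq1 (h ▸ hle)
      refine le_trans ?_ (Ideal.height_add_one_le_of_lt_of_isPrime hlt)
      rw [Nat.cast_succ]
      exact add_le_add_left hh 1

/-- Product theorem: components through a point of the common zero set of the derivatives of
small weight lie in `Y = 1` and contain no second point. -/
theorem PT {m : ℕ} (w : Fin (m + 1) → ℕ) (hw : ∀ i, 1 ≤ w i) (K D : ℕ) (hK1 : 1 ≤ K)
    (hD : ∀ i, w i ≤ D) (e : ℝ) (he : 0 < e) (he1 : e ≤ 1) (hK : (K : ℝ) * w 0 < e * D)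
    (hrat : ∀ i j, i < j → (w i : ℝ) < e ^ (m + 1) * w j)
    (a : Fin m → ℂ) (ha : ∀ j, a j ≠ 0) (P : Rm m) (hP0 : P ≠ 0) (hP : P ∈ Vs w K D 1)
    (p : Ideal (Rm m)) (hp : p.IsPrime)
    (hGp : Ideal.span (Gs w P (((m : ℝ) + 1) ^ 2 * e * D)) ≤ p) (s : ℕ) (hs : p ≤ mx a s) :
    (X 0 - 1 : Rm m) ∈ p ∧ ∀ s', s' ≠ s → ¬ p ≤ mx a s' := by
  by_contra hcon
  have hD1 : (1 : ℝ) ≤ D := by exact_mod_cast (hw 0).trans (hD 0)
  have hwp : ∀ i, (0 : ℝ) < w i := fun i => by exact_mod_cast hw i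
  set τ : ℝ := ((m : ℝ) + 1) * e * D with hτ
  have hτ0 : 0 < τ := by positivity
  let I : ℕ → Ideal (Rm m) := fun i => Ideal.span (Gs w P (i * τ))
  have hI : Monotone I := fun i j hij => Ideal.span_mono (by
    rintro _ ⟨u, hu, rfl⟩
    exact ⟨u, hu.trans (mul_le_mul_of_nonneg_right (by exact_mod_cast hij) hτ0.le), rfl⟩)
  have h0 : I 0 ≠ ⊥ := fun h => hP0 (by
    have : P ∈ I 0 := Ideal.subset_span ⟨[], by simp, rfl⟩
    rwa [h, Ideal.mem_bot] at this)
  have hle : I (m + 1) ≤ p := by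
    refine le_trans (le_of_eq ?_) hGp
    simp only [I, hτ]
    congr 2
    push_cast
    ring
  rcases PT_chain I hI h0 (m + 1) p hp hle with ⟨i, -, q, hq, hqp, hq1⟩ | hh
  swap
  · have h1 : (p.height : WithBot ℕ∞) ≤ ringKrullDim (Rm m) :=
      Ideal.height_le_ringKrullDim_of_isPrime
    rw [MvPolynomial.ringKrullDim_of_isNoetherianRing, ringKrullDim_eq_zero_of_field, zero_add,
      Nat.card_eq_fintype_card, Fintype.card_fin] at h1
    have h2 : (((m + 1 + 1 : ℕ) : ℕ∞) : WithBot ℕ∞) ≤ ((m + 1 : ℕ) : WithBot ℕ∞) :=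
      le_trans (WithBot.coe_le_coe.2 hh) h1
    have h3 : m + 1 + 1 ≤ m + 1 := by exact_mod_cast h2
    omega
  have hqq : q.IsPrime := hq.1.1
  have hq0 : q ≠ ⊥ := fun h => h0 (le_bot_iff.1 (h ▸ (hI (Nat.zero_le i)).trans hq.1.2))
  obtain ⟨B, A, f, hB, halg, hf, hcase⟩ := exists_fam a ha q hqq hq0 s (hqp.trans hs) (by
    by_contra hn
    push Not at hn
    apply hcon
    exact ⟨hqp hn.1, fun s' hs' h => hn.2 s' hs' (hqp.trans h)⟩)
  let d : Fin (m + 1) → ℕ := Fin.cons K fun j => D / w j.succ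
  have hd1 : ∀ i, 1 ≤ d i := fun i =>
    Fin.cases hK1 (fun j => (Nat.le_div_iff_mul_le (hw _)).2 (by simpa using hD _)) i
  have hd2 : ∀ i, (d i : ℝ) ≤ D / w i := fun i => by
    refine Fin.cases ?_ (fun j => Nat.cast_div_le) i
    rw [le_div_iff₀ (hwp 0)]
    change (K : ℝ) * w 0 ≤ D
    nlinarith
  have hA : A.card = Bᶜ.card := by
    rcases hcase with ⟨h1, h2⟩ | ⟨j, b, hj, hb, -, rfl⟩
    · rw [h1, h2]
    · rw [Finset.card_insert_of_notMem (by simp [hb]),
        Finset.card_erase_add_one (Finset.mem_compl.2 hj)]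
  have key := mult w hw d hd1 (Gs w P (i * τ)) (by
      rintro _ ⟨u, -, rfl⟩ μ hμ j
      obtain ⟨h1, h2⟩ := mem_Vs.1 (dw_mem_Vs hP u) μ hμ
      refine Fin.cases (by rw [one_mul] at h1; exact h1) (fun j => ?_) j
      refine (Nat.le_div_iff_mul_le (hw _)).2 ?_
      have := Finset.single_le_sum (f := fun j : Fin m => w j.succ * μ j.succ)
        (fun _ _ => Nat.zero_le _) (Finset.mem_univ j)
      rw [mul_comm]
      exact this.trans (h2.trans (one_mul D).le)) q hq τ hτ0 (by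
      rintro _ ⟨u, hu, rfl⟩ v _ hv
      rw [← dw_append]
      refine hq1 (Ideal.subset_span ⟨u ++ v, ?_, rfl⟩)
      rw [lwt_append]
      push_cast
      linarith) B hB halg A hA f hf
  have hs : ∀ a, τ / (((m : ℝ) + 1) * w a) = e * (D / w a) := fun a => by
    have := hwp a
    rw [hτ]
    field_simp
  simp only [hs] at key
  rcases hcase with ⟨h1, h2⟩ | ⟨j, b, hj, hb, hbj, rfl⟩
  · rw [h1, h2, Finset.prod_singleton, Finset.prod_singleton, ← mul_div_assoc,
      div_le_iff₀ (hwp 0)] at key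
    exact absurd hK (not_lt.2 key)
  · have hjB : j ∈ Bᶜ := Finset.mem_compl.2 hj
    rw [Finset.prod_insert (by simp [hb]), Finset.prod_mul_distrib, Finset.prod_const,
      ← Finset.mul_prod_erase _ _ hjB] at key
    set c := (Bᶜ.erase j).card with hc
    set Q : ℝ := ∏ x ∈ Bᶜ.erase j, ((D : ℝ) / w x) with hQ
    have hQ0 : 0 < Q := Finset.prod_pos fun x _ => div_pos (by linarith) (hwp x)
    have h1 : (d j : ℝ) * ∏ x ∈ Bᶜ.erase j, (d x : ℝ) ≤ D / w j * Q :=
      mul_le_mul (hd2 j) (Finset.prod_le_prod (fun _ _ => Nat.cast_nonneg _) fun x _ => hd2 x)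
        (Finset.prod_nonneg fun _ _ => Nat.cast_nonneg _) (div_pos (by linarith) (hwp j)).le
    have h2 : e ^ (c + 1) * (D / w b) ≤ D / w j := by
      refine le_of_mul_le_mul_right (le_trans (le_of_eq ?_) (key.trans h1)) hQ0
      ring
    have hc1 : c + 1 ≤ m + 1 := by
      rw [hc, Finset.card_erase_add_one hjB]
      simpa using Finset.card_le_univ Bᶜ
    have h3 : e ^ (m + 1) ≤ e ^ (c + 1) := pow_le_pow_of_le_one he.le he1 hc1
    have h4 := hrat b j hbj
    rw [← mul_div_assoc, div_le_div_iff₀ (hwp b) (hwp j)] at h2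
    have h5 : e ^ (c + 1) * w j ≤ w b := by
      refine le_of_mul_le_mul_right ?_ (by linarith : (0 : ℝ) < D)
      linarith
    nlinarith [hwp j]

end Crest.Agent.R11
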