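import Crest.Agent.R11.Defs

namespace Crest.Agent.R11

open MvPolynomial

/-- Dirichlet's box principle for real linear forms. -/
theorem box {ι κ : Type*} (I : Finset ι) (J : Finset κ) (α : κ → ι → ℝ) (B δ : ℝ) (H : ℕ)
    (hB : 0 ≤ B) (hα : ∀ k ∈ J, ∀ i ∈ I, |α k i| ≤ B) (hδ : 0 < δ)
    (hcard : (2 * I.card * H * B / δ + 2) ^ J.card < ((H : ℝ) + 1) ^ I.card) :
    ∃ c : ι → ℤ, (∃ i ∈ I, c i ≠ 0) ∧ (∀ i, |c i| ≤ H) ∧
      ∀ k ∈ J, |∑ i ∈ I, α k i * c i| ≤ δ := by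
  classical
  set Mx : ℝ := I.card * H * B with hMx
  have hMx0 : 0 ≤ Mx := by positivity
  set N : ℕ := ⌊2 * Mx / δ⌋₊ + 1 with hN
  let ext : (I → Fin (H + 1)) → ι → ℤ := fun x i => if h : i ∈ I then ((x ⟨i, h⟩ : ℕ) : ℤ) else 0
  have hext : ∀ x i, 0 ≤ ext x i ∧ ext x i ≤ H := by
    intro x i
    simp only [ext]
    split_ifs with h
    · exact ⟨Int.natCast_nonneg _, by exact_mod_cast Nat.lt_succ_iff.1 (x ⟨i, h⟩).2⟩
    · exact ⟨le_rfl, Int.natCast_nonneg _⟩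
  have hform : ∀ x, ∀ k ∈ J, |∑ i ∈ I, α k i * ext x i| ≤ Mx := by
    intro x k hk
    refine (Finset.abs_sum_le_sum_abs _ _).trans ?_
    have : ∀ i ∈ I, |α k i * ext x i| ≤ H * B := by
      intro i hi
      rw [abs_mul, mul_comm]
      refine mul_le_mul ?_ (hα k hk i hi) (abs_nonneg _) (Nat.cast_nonneg _)
      rw [abs_of_nonneg (by exact_mod_cast (hext x i).1)]
      exact_mod_cast (hext x i).2
    refine (Finset.sum_le_card_nsmul _ _ _ this).trans ?_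
    rw [nsmul_eq_mul, hMx, mul_assoc]
  let φ : (I → Fin (H + 1)) → (J → Fin N) := fun x k =>
    ⟨⌊(∑ i ∈ I, α k i * ext x i + Mx) / δ⌋₊, by
      refine Nat.lt_succ_of_le (Nat.floor_le_floor ?_)
      have := (abs_le.1 (hform x k k.2)).2
      gcongr
      linarith⟩
  have hlt : Fintype.card (J → Fin N) < Fintype.card (I → Fin (H + 1)) := by
    simp only [Fintype.card_fun, Fintype.card_fin, Fintype.card_coe]
    have h1 : (N : ℝ) ≤ 2 * I.card * H * B / δ + 2 := by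
      have := Nat.floor_le (show 0 ≤ 2 * Mx / δ by positivity)
      rw [hN]
      push_cast
      rw [show 2 * (I.card : ℝ) * H * B = 2 * Mx by rw [hMx]; ring]
      linarith
    have h2 : (N : ℝ) ^ J.card < ((H : ℝ) + 1) ^ I.card :=
      lt_of_le_of_lt (pow_le_pow_left₀ (Nat.cast_nonneg _) h1 _) hcard
    exact_mod_cast h2
  obtain ⟨x, y, hxy, hφ⟩ := Fintype.exists_ne_map_eq_of_card_lt φ hlt
  refine ⟨fun i => ext x i - ext y i, ?_, fun i => ?_, fun k hk => ?_⟩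
  · by_contra hc
    push Not at hc
    apply hxy
    funext i
    have := hc i i.2
    simp only [ext, i.2, dif_pos, sub_eq_zero, Nat.cast_inj] at this
    exact Fin.ext this
  · have h1 := hext x i
    have h2 := hext y i
    rw [abs_le]
    constructor <;> linarith [h1.1, h1.2, h2.1, h2.2]
  · have h1 : ⌊(∑ i ∈ I, α k i * ext x i + Mx) / δ⌋₊ = ⌊(∑ i ∈ I, α k i * ext y i + Mx) / δ⌋₊ :=
      congrArg Fin.val (congrFun hφ ⟨k, hk⟩)
    have hx0 : 0 ≤ (∑ i ∈ I, α k i * ext x i + Mx) / δ :=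
      div_nonneg (by linarith [(abs_le.1 (hform x k hk)).1]) hδ.le
    have hy0 : 0 ≤ (∑ i ∈ I, α k i * ext y i + Mx) / δ :=
      div_nonneg (by linarith [(abs_le.1 (hform y k hk)).1]) hδ.le
    have a1 := Nat.floor_le hx0
    have a2 := Nat.lt_floor_add_one ((∑ i ∈ I, α k i * ext x i + Mx) / δ)
    have a3 := Nat.floor_le hy0
    have a4 := Nat.lt_floor_add_one ((∑ i ∈ I, α k i * ext y i + Mx) / δ)
    rw [h1] at a1 a2
    have e : ∑ i ∈ I, α k i * ((ext x i - ext y i : ℤ) : ℝ) =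
        δ * ((∑ i ∈ I, α k i * ext x i + Mx) / δ - (∑ i ∈ I, α k i * ext y i + Mx) / δ) := by
      push_cast
      simp only [mul_sub, Finset.sum_sub_distrib]
      field_simp
      ring
    rw [e, abs_mul, abs_of_pos hδ]
    refine mul_le_of_le_one_right hδ.le (abs_le.2 ⟨by linarith, by linarith⟩)

theorem siegel_fac_le (q l b : ℕ) {R₀ r : ℝ} (hR : 1 ≤ R₀) (hr0 : 0 ≤ r) (hr : r ≤ R₀) :
    (q : ℝ) ^ l * (l.choose b : ℝ) * r ^ (l - b) ≤ ((q : ℝ) * (2 * R₀)) ^ l := by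
  have h1 : (l.choose b : ℝ) ≤ 2 ^ l := by exact_mod_cast Nat.choose_le_two_pow l b
  have h2 : r ^ (l - b) ≤ R₀ ^ l :=
    (pow_le_pow_left₀ hr0 hr _).trans (pow_le_pow_right₀ hR (Nat.sub_le _ _))
  rw [mul_pow, mul_pow, mul_assoc]
  gcongr

theorem siegel_prod_le {m : ℕ} (q l b : Fin m → ℕ) {R₀ : ℝ} (hR : 1 ≤ R₀) {ζ : ℂ} (hζ : ‖ζ‖ ≤ R₀) :
    ‖∏ j : Fin m, ((q j : ℂ) ^ l j * ((l j).choose (b j) : ℂ) * ζ ^ (l j - b j))‖ ≤
      ∏ j, ((q j : ℝ) * (2 * R₀)) ^ l j := by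
  rw [norm_prod]
  refine Finset.prod_le_prod (fun _ _ => norm_nonneg _) fun j _ => ?_
  rw [norm_mul, norm_mul, norm_pow, norm_pow, Complex.norm_natCast, Complex.norm_natCast]
  exact siegel_fac_le _ _ _ hR (norm_nonneg _) hζ

theorem siegel_sum_exp_le (y : ℝ) (hy : 0 ≤ y) (s : Finset ℕ) :
    ∑ i ∈ s, y ^ i / (i.factorial : ℝ) ≤ Real.exp y := by
  have h : HasSum (fun i : ℕ => y ^ i / (i.factorial : ℝ)) (Real.exp y) := by
    rw [Real.exp_eq_exp_ℝ]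
    exact NormedSpace.expSeries_div_hasSum_exp y
  exact sum_le_hasSum s (fun i _ => by positivity) h

theorem siegel_tail (y : ℂ) (na : ℕ) :
    ‖Complex.exp y - ∑ i ∈ Finset.range na, y ^ i / (i.factorial : ℂ)‖ ≤ Real.exp (3 * ‖y‖ - na) := by
  have h : HasSum (fun i : ℕ => y ^ i / (i.factorial : ℂ)) (Complex.exp y) := by
    rw [Complex.exp_eq_exp_ℂ]
    exact NormedSpace.expSeries_div_hasSum_exp y
  have h1 := (hasSum_nat_add_iff' na).2 h
  have h3 : HasSum (fun i : ℕ => (3 * ‖y‖) ^ i / (i.factorial : ℝ)) (Real.exp (3 * ‖y‖)) := by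
    rw [Real.exp_eq_exp_ℝ]
    exact NormedSpace.expSeries_div_hasSum_exp _
  have h4 := ((hasSum_nat_add_iff' na).2 h3).mul_left (Real.exp (-na))
  refine (h1.norm_le_of_bounded h4 fun i => ?_).trans ?_
  · rw [norm_div, norm_pow, Complex.norm_natCast, mul_pow, ← mul_div_assoc, ← mul_assoc]
    refine div_le_div_of_nonneg_right (le_mul_of_one_le_left (by positivity) ?_) (by positivity)
    have h5 : Real.exp na ≤ 3 ^ (i + na) := by
      rw [← Real.exp_one_pow]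
      refine (pow_le_pow_left₀ (Real.exp_pos 1).le (Real.exp_one_lt_three.le) _).trans ?_
      exact pow_le_pow_right₀ (by norm_num) (Nat.le_add_left _ _)
    rw [Real.exp_neg, inv_mul_eq_div, one_le_div (Real.exp_pos _)]
    exact h5
  · rw [sub_eq_add_neg (3 * ‖y‖), add_comm, Real.exp_add]
    refine mul_le_mul_of_nonneg_left ?_ (Real.exp_pos _).le
    have : 0 ≤ ∑ i ∈ Finset.range na, (3 * ‖y‖) ^ i / (i.factorial : ℝ) :=
      Finset.sum_nonneg fun i _ => by positivity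
    linarith

theorem Gf_le {m : ℕ} (q : Fin m → ℕ) (T : Finset ((Fin m → ℕ) × ℕ)) (K : ℕ)
    (hK : ∀ x ∈ T, x.2 ≤ K) (R₀ B : ℝ) (hR : 1 ≤ R₀)
    (hB : ∀ x ∈ T, ∏ j, ((q j : ℝ) * (2 * R₀)) ^ x.1 j ≤ B) (H : ℕ)
    (c : (Fin m → ℕ) × ℕ → ℤ) (hc : ∀ x, |c x| ≤ H) (b : Fin m → ℕ) (ζ : ℂ) (hζ : ‖ζ‖ ≤ R₀) :
    ‖Gf q T c b ζ‖ ≤ T.card * H * B * Real.exp (K * R₀) := by
  refine (norm_sum_le _ _).trans ?_
  have : ∀ x ∈ T, ‖(c x : ℂ) * Complex.exp (x.2 * ζ) *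
      ∏ j : Fin m, ((q j : ℂ) ^ x.1 j * ((x.1 j).choose (b j) : ℂ) * ζ ^ (x.1 j - b j))‖ ≤
      H * B * Real.exp (K * R₀) := by
    intro x hx
    rw [norm_mul, norm_mul, mul_right_comm]
    have h1 : ‖(c x : ℂ)‖ ≤ H := by
      rw [Complex.norm_intCast]
      exact_mod_cast hc x
    have h2 := (siegel_prod_le q x.1 b hR hζ).trans (hB x hx)
    have h3 : ‖Complex.exp (x.2 * ζ)‖ ≤ Real.exp (K * R₀) := by
      refine (Complex.norm_exp_le_exp_norm _).trans (Real.exp_le_exp.2 ?_)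
      rw [norm_mul, Complex.norm_natCast]
      exact mul_le_mul (by exact_mod_cast hK x hx) hζ (norm_nonneg _) (Nat.cast_nonneg _)
    have h4 : 0 ≤ B := (norm_nonneg _).trans h2
    gcongr
  refine (Finset.sum_le_card_nsmul _ _ _ this).trans (le_of_eq ?_)
  rw [nsmul_eq_mul]
  ring

/-- The auxiliary function: small coefficients `Gf b` for `b ∈ Λ`. -/
theorem aux_exists {m : ℕ} (q : Fin m → ℕ) (T : Finset ((Fin m → ℕ) × ℕ)) (K L na : ℕ)
    (hK : ∀ x ∈ T, x.2 ≤ K) (hL : ∀ x ∈ T, ∑ j, x.1 j ≤ L) (R₀ B δ : ℝ) (hR : 1 ≤ R₀)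
    (hB0 : 0 ≤ B) (hB : ∀ x ∈ T, ∏ j, ((q j : ℝ) * (2 * R₀)) ^ x.1 j ≤ B) (hδ : 0 < δ) (H : ℕ)
    (Λ : Finset (Fin m → ℕ))
    (hcard : (2 * T.card * H * (B * Real.exp (K * R₀)) / δ + 2) ^ (Λ.card * (na + L)) <
      ((H : ℝ) + 1) ^ T.card) :
    ∃ c : (Fin m → ℕ) × ℕ → ℤ, (∃ x ∈ T, c x ≠ 0) ∧ (∀ x, |c x| ≤ H) ∧
      ∀ b ∈ Λ, ∀ ζ : ℂ, ‖ζ‖ ≤ R₀ → ‖Gf q T c b ζ‖ ≤
        (na + L) * δ + T.card * H * B * Real.exp (3 * (K * R₀) - na) := by
  classical
  have hR0 : 0 < R₀ := by linarith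
  let d : (Fin m → ℕ) × ℕ → (Fin m → ℕ) → ℕ := fun x b => ∑ j, (x.1 j - b j)
  let A : (Fin m → ℕ) × ℕ → (Fin m → ℕ) → ℝ := fun x b => ∏ j, ((q j : ℝ) ^ x.1 j * ((x.1 j).choose (b j) : ℝ))
  let γ : (Fin m → ℕ) × ℕ → (Fin m → ℕ) → ℕ → ℝ := fun x b n =>
    if d x b ≤ n ∧ n - d x b < na then (x.2 : ℝ) ^ (n - d x b) / ((n - d x b).factorial : ℝ) else 0
  let α : (Fin m → ℕ) × ℕ → (Fin m → ℕ) × ℕ → ℝ := fun k x => A x k.1 * R₀ ^ k.2 * γ x k.1 k.2
  have hA0 : ∀ x b, 0 ≤ A x b := fun x b => Finset.prod_nonneg fun j _ => by positivity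
  have hAB : ∀ x ∈ T, ∀ b, A x b * R₀ ^ d x b ≤ B := by
    intro x hx b
    refine le_trans ?_ (hB x hx)
    simp only [A, d]
    rw [← Finset.prod_pow_eq_pow_sum, ← Finset.prod_mul_distrib]
    exact Finset.prod_le_prod (fun j _ => by positivity) fun j _ => siegel_fac_le _ _ _ hR hR0.le le_rfl
  have hα : ∀ k ∈ Λ ×ˢ Finset.range (na + L), ∀ x ∈ T, |α k x| ≤ B * Real.exp (K * R₀) := by
    intro k _ x hx
    simp only [α, γ]
    split_ifs with h
    · rw [abs_of_nonneg (by have := hA0 x k.1; positivity)]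
      have e : R₀ ^ k.2 = R₀ ^ d x k.1 * R₀ ^ (k.2 - d x k.1) := by
        rw [← pow_add, Nat.add_sub_cancel' h.1]
      have h1 : ((x.2 : ℝ) * R₀) ^ (k.2 - d x k.1) / ((k.2 - d x k.1).factorial : ℝ) ≤ Real.exp (K * R₀) := by
        have := siegel_sum_exp_le ((x.2 : ℝ) * R₀) (by positivity) {k.2 - d x k.1}
        rw [Finset.sum_singleton] at this
        refine this.trans (Real.exp_le_exp.2 ?_)
        exact mul_le_mul_of_nonneg_right (by exact_mod_cast hK x hx) hR0.le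
      calc A x k.1 * R₀ ^ k.2 * ((x.2 : ℝ) ^ (k.2 - d x k.1) / ((k.2 - d x k.1).factorial : ℝ))
          = (A x k.1 * R₀ ^ d x k.1) *
            (((x.2 : ℝ) * R₀) ^ (k.2 - d x k.1) / ((k.2 - d x k.1).factorial : ℝ)) := by
            rw [e, mul_pow]; ring
        _ ≤ _ := mul_le_mul (hAB x hx _) h1 (by positivity) hB0
    · simp only [mul_zero, abs_zero]
      positivity
  obtain ⟨c, hc1, hc2, hc3⟩ := box T (Λ ×ˢ Finset.range (na + L)) α (B * Real.exp (K * R₀)) δ H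
    (by positivity) hα hδ (by rwa [Finset.card_product, Finset.card_range])
  refine ⟨c, hc1, hc2, fun b hb ζ hζ => ?_⟩
  have hdL : ∀ x ∈ T, d x b ≤ L := fun x hx =>
    (Finset.sum_le_sum fun j _ => Nat.sub_le _ _).trans (hL x hx)
  have hprod : ∀ x : (Fin m → ℕ) × ℕ, ∏ j : Fin m, ((q j : ℂ) ^ x.1 j * ((x.1 j).choose (b j) : ℂ) *
      ζ ^ (x.1 j - b j)) = (A x b : ℂ) * ζ ^ d x b := by
    intro x
    simp only [A, d]
    rw [Finset.prod_mul_distrib, Finset.prod_pow_eq_pow_sum]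
    push_cast
    rfl
  have hshift : ∀ x ∈ T, ζ ^ d x b * ∑ i ∈ Finset.range na, ((x.2 : ℂ) * ζ) ^ i / (i.factorial : ℂ) =
      ∑ n ∈ Finset.range (na + L), (γ x b n : ℂ) * ζ ^ n := by
    intro x hx
    rw [Finset.mul_sum]
    symm
    rw [← Finset.sum_subset (s₁ := (Finset.range na).image (d x b + ·))]
    · rw [Finset.sum_image (fun i _ j _ h => Nat.add_left_cancel h)]
      refine Finset.sum_congr rfl fun i hi => ?_
      simp only [γ]
      rw [if_pos ⟨Nat.le_add_right _ _, by simpa using hi⟩, Nat.add_sub_cancel_left, pow_add, mul_pow]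
      push_cast
      ring
    · intro n hn
      obtain ⟨i, hi, rfl⟩ := Finset.mem_image.1 hn
      have := hdL x hx
      rw [Finset.mem_range] at hi ⊢
      omega
    · intro n _ hn
      simp only [γ]
      rw [if_neg, Complex.ofReal_zero, zero_mul]
      rintro ⟨h1, h2⟩
      exact hn (Finset.mem_image.2 ⟨n - d x b, Finset.mem_range.2 h2, by omega⟩)
  have hsplit : Gf q T c b ζ =
      ∑ n ∈ Finset.range (na + L), ((∑ x ∈ T, α (b, n) x * c x : ℝ) : ℂ) * (ζ / R₀) ^ n +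
      ∑ x ∈ T, (c x : ℂ) * ((A x b : ℂ) * ζ ^ d x b) *
        (Complex.exp (x.2 * ζ) - ∑ i ∈ Finset.range na, ((x.2 : ℂ) * ζ) ^ i / (i.factorial : ℂ)) := by
    have hR0' : (R₀ : ℂ) ≠ 0 := by exact_mod_cast hR0.ne'
    simp only [Gf, hprod]
    push_cast
    simp only [Finset.sum_mul]
    rw [Finset.sum_comm, ← Finset.sum_add_distrib]
    refine Finset.sum_congr rfl fun x hx => ?_
    have e : ∑ n ∈ Finset.range (na + L), (α (b, n) x : ℂ) * (c x : ℂ) * (ζ / R₀) ^ n =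
        (c x : ℂ) * (A x b : ℂ) * ∑ n ∈ Finset.range (na + L), (γ x b n : ℂ) * ζ ^ n := by
      rw [Finset.mul_sum]
      refine Finset.sum_congr rfl fun n _ => ?_
      simp only [α]
      push_cast
      rw [div_pow]
      field_simp
    rw [e, ← hshift x hx]
    ring
  rw [hsplit]
  refine (norm_add_le _ _).trans (add_le_add ?_ ?_)
  · refine (norm_sum_le _ _).trans ?_
    have : ∀ n ∈ Finset.range (na + L), ‖((∑ x ∈ T, α (b, n) x * c x : ℝ) : ℂ) * (ζ / R₀) ^ n‖ ≤ δ := by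
      intro n hn
      rw [norm_mul, Complex.norm_real, Real.norm_eq_abs, norm_pow, norm_div, Complex.norm_real, Real.norm_eq_abs,
        abs_of_pos hR0]
      have h1 := hc3 (b, n) (Finset.mem_product.2 ⟨hb, hn⟩)
      have h2 : (‖ζ‖ / R₀) ^ n ≤ 1 := pow_le_one₀ (by positivity) ((div_le_one hR0).2 hζ)
      exact (mul_le_of_le_one_right (abs_nonneg _) h2).trans h1
    refine (Finset.sum_le_card_nsmul _ _ _ this).trans (le_of_eq ?_)
    rw [nsmul_eq_mul, Finset.card_range]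
    push_cast
    ring
  · refine (norm_sum_le _ _).trans ?_
    have : ∀ x ∈ T, ‖(c x : ℂ) * ((A x b : ℂ) * ζ ^ d x b) *
        (Complex.exp (x.2 * ζ) - ∑ i ∈ Finset.range na, ((x.2 : ℂ) * ζ) ^ i / (i.factorial : ℂ))‖ ≤
        H * B * Real.exp (3 * (K * R₀) - na) := by
      intro x hx
      rw [norm_mul, norm_mul]
      have h1 : ‖(c x : ℂ)‖ ≤ H := by
        rw [Complex.norm_intCast]
        exact_mod_cast hc2 x
      have h2 : ‖(A x b : ℂ) * ζ ^ d x b‖ ≤ B := by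
        rw [← hprod]
        exact (siegel_prod_le q x.1 b hR hζ).trans (hB x hx)
      have h3 := siegel_tail ((x.2 : ℂ) * ζ) na
      have h4 : ‖(x.2 : ℂ) * ζ‖ ≤ K * R₀ := by
        rw [norm_mul, Complex.norm_natCast]
        exact mul_le_mul (by exact_mod_cast hK x hx) hζ (norm_nonneg _) (Nat.cast_nonneg _)
      have h5 := h3.trans (Real.exp_le_exp.2 (show 3 * ‖(x.2 : ℂ) * ζ‖ - na ≤ 3 * (K * R₀) - na by linarith))
      gcongr
    refine (Finset.sum_le_card_nsmul _ _ _ this).trans (le_of_eq ?_)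
    rw [nsmul_eq_mul]
    ring

/-- exponent of a term of `auxP` -/
noncomputable def siegelExp {m : ℕ} (x : (Fin m → ℕ) × ℕ) : Fin (m + 1) →₀ ℕ :=
  Finsupp.equivFunOnFinite.symm (Fin.cons x.2 x.1)

theorem siegelExp_zero {m : ℕ} (x : (Fin m → ℕ) × ℕ) : siegelExp x 0 = x.2 := rfl

theorem siegelExp_succ {m : ℕ} (x : (Fin m → ℕ) × ℕ) (j : Fin m) : siegelExp x j.succ = x.1 j := rfl

theorem siegelExp_inj {m : ℕ} : Function.Injective (siegelExp (m := m)) := by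
  intro x y h
  refine Prod.ext (funext fun j => ?_) ?_
  · rw [← siegelExp_succ, h, siegelExp_succ]
  · rw [← siegelExp_zero, h, siegelExp_zero]

theorem auxP_eq_sum {m : ℕ} (q : Fin m → ℕ) (T : Finset ((Fin m → ℕ) × ℕ)) (c : (Fin m → ℕ) × ℕ → ℤ) :
    auxP q T c = ∑ x ∈ T, monomial (siegelExp x) ((c x : ℂ) * ∏ j, (q j : ℂ) ^ x.1 j) := by
  refine Finset.sum_congr rfl fun x _ => ?_
  rw [monomial_eq, Finsupp.prod_fintype _ _ (fun _ => pow_zero _), Fin.prod_univ_succ, siegelExp_zero]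
  simp only [siegelExp_succ, mul_pow, Finset.prod_mul_distrib, map_mul, map_prod, map_pow]
  ring

theorem auxP_ne_zero {m : ℕ} (q : Fin m → ℕ) (hq : ∀ j, 1 ≤ q j) (T : Finset ((Fin m → ℕ) × ℕ))
    (c : (Fin m → ℕ) × ℕ → ℤ) (hc : ∃ x ∈ T, c x ≠ 0) : auxP q T c ≠ 0 := by
  classical
  obtain ⟨x, hx, hcx⟩ := hc
  intro h
  have := congrArg (coeff (siegelExp x)) h
  rw [auxP_eq_sum, coeff_sum, Finset.sum_eq_single x, coeff_monomial, if_pos rfl, coeff_zero] at this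
  · refine mul_ne_zero (by exact_mod_cast hcx) (Finset.prod_ne_zero_iff.2 fun j _ => pow_ne_zero _ ?_) this
    exact_mod_cast (show q j ≠ 0 by have := hq j; omega)
  · intro y _ hy
    rw [coeff_monomial, if_neg fun h => hy (siegelExp_inj h)]
  · intro h
    exact absurd hx h

theorem auxP_mem_Vs {m : ℕ} (w : Fin (m + 1) → ℕ) (K D : ℕ) (q : Fin m → ℕ)
    (T : Finset ((Fin m → ℕ) × ℕ))
    (hT : ∀ x ∈ T, x.2 ≤ K ∧ ∑ j : Fin m, w j.succ * x.1 j ≤ D) (c : (Fin m → ℕ) × ℕ → ℤ) :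
    auxP q T c ∈ Vs w K D 1 := by
  classical
  rw [auxP_eq_sum]
  refine Submodule.sum_mem _ fun x hx => mem_Vs.2 fun μ hμ => ?_
  have := support_monomial_subset hμ
  rw [Finset.mem_singleton] at this
  subst this
  simpa [siegelExp_zero, siegelExp_succ] using hT x hx

end Crest.Agent.R11
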