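import Crest.Agent.R11.Siegel
import Crest.Agent.R11.Count

namespace Crest.Agent.R11

open MvPolynomial

/-- Construction of the auxiliary coefficients with explicit exponential bounds. -/
theorem aux_bounds {m : ℕ} (ν δ : ℝ) (hν : 2 < ν) (hδ : 0 < δ) (hδ1 : δ ≤ 1 / 20)
    (S D W : ℕ) (hS : 1 ≤ S) (hm : 1 ≤ m) (q : Fin m → ℕ) (hq : ∀ j, 1 ≤ q j)
    (w : Fin m → ℕ) (hwq : ∀ j, Real.log (q j) ≤ w j) (hW : ∀ j, W ≤ w j)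
    (hW1 : 100 * (m : ℝ) * S ≤ δ * W) (hS2 : 256 * (S : ℝ) ≤ δ ^ 2 * (ν / 2) ^ m)
    (hD1 : ((D : ℝ) + 1) ^ (m + 1) ≤ Real.exp (δ * D)) (hD2 : 4 * (D : ℝ) + 2 ≤ Real.exp (δ * D))
    (hD3 : (2 / ν * D + ∑ j, (w j : ℝ)) ^ m ≤ 2 * (2 / ν * D) ^ m) :
    ∃ c : (Fin m → ℕ) × ℕ → ℤ,
      (∃ x ∈ simplex w D ×ˢ Finset.range (⌊δ * D / (8 * S)⌋₊ + 1), c x ≠ 0) ∧
      ∀ (b : Fin m → ℕ) (ζ : ℂ), ‖ζ‖ ≤ 8 * S →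
        ‖Gf q (simplex w D ×ˢ Finset.range (⌊δ * D / (8 * S)⌋₊ + 1)) c b ζ‖ ≤
          if ((∑ j, w j * b j : ℕ) : ℝ) ≤ 2 / ν * D then Real.exp (δ * D - D)
          else Real.exp (D + 5 * δ * D) := by
  sorry

end Crest.Agent.R11
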