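import Crest.Agent.R11.Vanish1
import Crest.Agent.R11.Liou
import Crest.Agent.R11.Anal

namespace Crest.Agent.R11

open MvPolynomial

/-- The auxiliary polynomial vanishes to high index at the points. -/
theorem vanish {m : ℕ} (ν δ : ℝ) (hν : 2 < ν) (hν3 : ν ≤ 3) (hδ : 0 < δ) (hδ1 : δ ≤ 1 / 20)
    (S D W : ℕ) (hS : 1 ≤ S) (hm : 1 ≤ m) (p : Fin m → ℤ) (q : Fin m → ℕ) (hq : ∀ j, 1 ≤ q j)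
    (happ : ∀ j, |Real.pi - (p j : ℝ) / (q j : ℝ)| < 1 / (q j : ℝ) ^ ν)
    (w : Fin (m + 1) → ℕ) (hwq : ∀ j, Real.log (q j) ≤ w j.succ)
    (hwq' : ∀ j, (w j.succ : ℝ) ≤ Real.log (q j) + 1) (hW : ∀ j : Fin m, W ≤ w j.succ)
    (hW1 : 100 * (m : ℝ) * S ≤ δ * W) (hw0 : 6 * (m : ℝ) ≤ δ * w 0)
    (hS2 : 256 * (S : ℝ) ≤ δ ^ 2 * (ν / 2) ^ m)
    (hD1 : ((D : ℝ) + 1) ^ (m + 1) ≤ Real.exp (δ * D)) (hD2 : 4 * (D : ℝ) + 2 ≤ Real.exp (δ * D))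
    (hD3 : (2 / ν * D + ∑ j : Fin m, (w j.succ : ℝ)) ^ m ≤ 2 * (2 / ν * D) ^ m) :
    ∃ P : Rm m, P ≠ 0 ∧ P ∈ Vs w ⌊δ * D / (8 * S)⌋₊ D 1 ∧
      P ∈ aI w (apx p q) S ((1 - 10 * δ) / (ν - 1) * D) := by
  sorry

end Crest.Agent.R11
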