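import Crest.Agent.R11.Defs

namespace Crest.Agent.R11

variable {R ι : Type*} [CommRing R] [Algebra ℂ R] [Fintype ι] [DecidableEq ι]

theorem lwt_eq_sum_count (ω : ι → ℕ) (u : List ι) : lwt ω u = ∑ a, ω a * u.count a := by
  sorry

theorem exists_word (β : ι → ℕ) : ∃ u : List ι, ∀ a, u.count a = β a := by
  sorry

theorem mon_mem_idx {D : ι → Derivation ℂ R R} {A : Set ι} {ω : ι → ℕ} {q : Ideal R} {f : ι → R}
    (hf : ∀ a ∈ A, f a ∈ idx D A ω q (ω a)) (β : ι → ℕ) (hβ : ∀ a, a ∉ A → β a = 0) :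
    mon f β ∈ idx D A ω q ((∑ a, ω a * β a : ℕ) : ℝ) := by
  sorry

/-- Leading coefficient of a derivative of a monomial in a weight-unipotent family. -/
theorem dw_mon {D : ι → Derivation ℂ R R} {A : Set ι} {ω : ι → ℕ} (hω : ∀ a, 1 ≤ ω a)
    {q : Ideal R} {f : ι → R}
    (hf : ∀ a ∈ A, f a ∈ idx D A ω q (ω a))
    (hd : ∀ i ∈ A, ∀ a ∈ A, i ≠ a → D i (f a) ∈ idx D A ω q ((ω a : ℝ) - ω i + 1))
    (u : List ι) (hu : ∀ i ∈ u, i ∈ A) (β : ι → ℕ) (hβ : ∀ a, a ∉ A → β a = 0)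
    (hw : ∑ a, ω a * β a = lwt ω u) (r : R) :
    dw D u (r * mon f β) -
      (if ∀ a, u.count a = β a then r * ∏ a, (((β a).factorial : R) * (D a (f a)) ^ β a) else 0)
      ∈ q := by
  sorry

/-- Monomials in a family dual to the derivations are independent modulo the index ideal. -/
theorem indep {D : ι → Derivation ℂ R R} {A : Set ι} {ω : ι → ℕ} {q : Ideal R} (hq : q.IsPrime)
    {f : ι → R} (hf : ∀ a ∈ A, f a ∈ q) (hd : ∀ i ∈ A, ∀ a ∈ A, i ≠ a → D i (f a) ∈ q)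
    (hk : ∀ a ∈ A, D a (f a) ∉ q) (t : ℝ) (Λ : Finset (ι → ℕ))
    (hΛ : ∀ β ∈ Λ, (∀ a, a ∉ A → β a = 0) ∧ ((∑ a, ω a * β a : ℕ) : ℝ) < t)
    (r : (ι → ℕ) → R) (hr : ∀ β ∈ Λ, r β ∈ q → r β = 0)
    (h : ∑ β ∈ Λ, r β * mon f β ∈ idx D Set.univ ω q t) : ∀ β ∈ Λ, r β = 0 := by
  sorry

end Crest.Agent.R11
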